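import Mathlib

/-!
# P193 machine: the integer operations used are primitive recursive
-/

namespace Vale.Agent.P193.Machine

open Primrec

variable {α σ : Type*} [Primcodable α] [Primcodable σ]

theorem encode_int_ofNat (n : ℕ) : Encodable.encode (Int.ofNat n) = 2 * n := rfl

theorem encode_int_negSucc (n : ℕ) : Encodable.encode (Int.negSucc n) = 2 * n + 1 := rfl

theorem decode_int (n : ℕ) :
    (Denumerable.ofNat ℤ n) = if n % 2 = 0 then Int.ofNat (n / 2) else Int.negSucc (n / 2) := by
  apply Encodable.encode_injective
  rw [Denumerable.encode_ofNat]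
  split_ifs with h
  · rw [encode_int_ofNat]; omega
  · rw [encode_int_negSucc]; omega

/-- Definition by cases on the sign. -/
theorem int_cases {z : α → ℤ} {f g : α → ℕ → σ} (hz : Primrec z) (hf : Primrec₂ f)
    (hg : Primrec₂ g) {h : α → σ} (e₁ : ∀ a n, z a = Int.ofNat n → h a = f a n)
    (e₂ : ∀ a n, z a = Int.negSucc n → h a = g a n) : Primrec h := by
  have he : Primrec fun a => Encodable.encode (z a) := Primrec.encode.comp hz
  refine ((ite (Primrec.eq.comp (nat_mod.comp he (const 2)) (const 0))
    (hf.comp Primrec.id (nat_div.comp he (const 2)))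
    (hg.comp Primrec.id (nat_div.comp he (const 2))))).of_eq fun a => ?_
  rcases hza : z a with n | n
  · rw [encode_int_ofNat, if_pos (by omega), e₁ a n hza]
    congr 1
    omega
  · rw [encode_int_negSucc, if_neg (by omega), e₂ a n hza]
    congr 1
    omega

theorem int_ofNat : Primrec (fun n : ℕ => (n : ℤ)) :=
  ((Primrec.ofNat ℤ).comp (nat_mul.comp (const 2) Primrec.id)).of_eq fun n => by
    rw [decode_int, if_pos (by simp)]
    simp

theorem int_negSucc : Primrec Int.negSucc :=
  ((Primrec.ofNat ℤ).comp (nat_add.comp (nat_mul.comp (const 2) Primrec.id) (const 1))).of_eq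
    fun n => by
      rw [decode_int, if_neg (by simp)]
      congr 1
      simp
      omega

theorem int_natAbs : Primrec Int.natAbs :=
  int_cases Primrec.id snd.to₂ (succ.comp snd).to₂ (fun a n h => by subst h; rfl)
    (fun a n h => by subst h; rfl)

theorem int_emod_toNat : Primrec₂ fun (z : ℤ) (d : ℕ) => (z % (d : ℤ)).toNat :=
  int_cases fst (nat_mod.comp snd (snd.comp fst)).to₂
    (nat_sub.comp (snd.comp fst)
      (succ.comp (nat_mod.comp snd (snd.comp fst)))).to₂
    (fun a n h => by
      simp only [h]
      show ((n : ℤ) % (a.2 : ℤ)).toNat = _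
      rw [← Int.natCast_mod, Int.toNat_natCast])
    (fun a n h => by
      simp only [h]
      rcases Nat.eq_zero_or_pos a.2 with hd | hd
      · simp [hd]
      · rw [Int.negSucc_emod _ (by exact_mod_cast hd)]
        have := Nat.mod_lt n hd
        rw [← Int.natCast_mod]
        omega)

theorem int_ediv_nat : Primrec₂ fun (z : ℤ) (d : ℕ) => z / (d : ℤ) :=
  int_cases fst (int_ofNat.comp (nat_div.comp snd (snd.comp fst))).to₂
    (ite (Primrec.eq.comp (snd.comp fst) (const 0)) (const 0)
      (int_negSucc.comp (nat_div.comp snd (snd.comp fst)))).to₂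
    (fun a n h => by simp [h])
    (fun a n h => by
      simp only [h]
      split_ifs with hd
      · simp [hd]
      · rw [Int.negSucc_ediv _ (by omega)]
        simp [Int.negSucc_eq]
        rfl)

theorem int_mul_nat : Primrec₂ fun (z : ℤ) (d : ℕ) => z * (d : ℤ) :=
  int_cases fst (int_ofNat.comp (nat_mul.comp snd (snd.comp fst))).to₂
    (ite (Primrec.eq.comp (snd.comp fst) (const 0)) (const 0)
      (int_negSucc.comp (nat_sub.comp (nat_mul.comp (succ.comp snd) (snd.comp fst))
        (const 1)))).to₂
    (fun a n h => by simp [h])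
    (fun a n h => by
      simp only [h]
      split_ifs with hd
      · simp [hd]
      · have : 1 ≤ n.succ * a.2 := Nat.one_le_iff_ne_zero.2 (by simp [hd])
        rw [Int.negSucc_eq, Int.negSucc_eq]
        push_cast [Nat.cast_sub this]
        ring)

theorem int_add_nat : Primrec₂ fun (z : ℤ) (d : ℕ) => z + (d : ℤ) :=
  int_cases fst (int_ofNat.comp (nat_add.comp snd (snd.comp fst))).to₂
    (ite (nat_lt.comp snd (snd.comp fst))
      (int_ofNat.comp (nat_sub.comp (snd.comp fst) (succ.comp snd)))
      (int_negSucc.comp (nat_sub.comp snd (snd.comp fst)))).to₂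
    (fun a n h => by simp [h])
    (fun a n h => by
      simp only [h]
      split_ifs with hd
      · rw [Int.negSucc_eq, Nat.cast_sub (by omega)]
        push_cast
        ring
      · rw [Int.negSucc_eq, Int.negSucc_eq, Nat.cast_sub (by omega)]
        ring)

end Vale.Agent.P193.Machine
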