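import Vale.Agent.P193.Machine.Loop

/-!
# P193 machine: registers as prime exponents, programs as lists of operations

The registers `σ 0, …, σ (K-1)` live in an integer `R = J * ∏ pr r ^ σ r` with a factor `J` that
no operation looks at. One operation `(m, dv, yes, no)` multiplies `R` by `m / dv` and jumps to
`yes` if `dv ∣ R`, and jumps to `no` otherwise.
-/

namespace Vale.Agent.P193.Machine

open Function

/-- The prime of a register. -/
noncomputable def pr (r : ℕ) : ℕ := Nat.nth Nat.Prime r

theorem pr_prime (r : ℕ) : (pr r).Prime := Nat.prime_nth_prime r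

theorem pr_inj {r s : ℕ} (h : pr r = pr s) : r = s :=
  Nat.nth_injective Nat.infinite_setOfPred_prime h

theorem pr_pos (r : ℕ) : 0 < pr r := (pr_prime r).pos

/-- The number holding the registers below `K`. -/
noncomputable def val (K : ℕ) (σ : ℕ → ℕ) : ℕ := ∏ r ∈ Finset.range K, pr r ^ σ r

theorem val_pos (K : ℕ) (σ : ℕ → ℕ) : 0 < val K σ :=
  Finset.prod_pos fun r _ => pow_pos (pr_pos r) _

theorem val_congr {K : ℕ} {σ τ : ℕ → ℕ} (h : ∀ r < K, σ r = τ r) : val K σ = val K τ :=
  Finset.prod_congr rfl fun r hr => by rw [h r (Finset.mem_range.1 hr)]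

theorem val_add (K : ℕ) (σ τ : ℕ → ℕ) : val K (fun r => σ r + τ r) = val K σ * val K τ := by
  simp [val, pow_add, Finset.prod_mul_distrib]

theorem val_zero (K : ℕ) : val K (fun _ => 0) = 1 := by simp [val]

theorem val_single {K r : ℕ} (hr : r < K) (a : ℕ) :
    val K (fun s => if s = r then a else 0) = pr r ^ a := by
  unfold val
  rw [Finset.prod_eq_single r (fun s _ hs => by simp [hs])
    (fun h => absurd (Finset.mem_range.2 hr) h)]
  simp

theorem val_count {K : ℕ} : ∀ {a : List ℕ}, (∀ r ∈ a, r < K) →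
    val K (fun s => a.count s) = (a.map pr).prod
  | [], _ => by simp [val]
  | r :: a, h => by
    rw [List.map_cons, List.prod_cons, ← val_count fun s hs => h s (List.mem_cons_of_mem _ hs),
      ← pow_one (pr r), ← val_single (h r (List.mem_cons_self ..)) 1, ← val_add]
    refine val_congr fun s _ => ?_
    by_cases hs : s = r
    · subst hs; simp [Nat.add_comm]
    · simp [hs, Ne.symm hs]

/-- `J` is not divisible by any of the register primes. -/
def Clean (K : ℕ) (J : ℤ) : Prop := ∀ r < K, ¬ (pr r : ℤ) ∣ J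

theorem clean_one (K : ℕ) : Clean K 1 := fun r _ h =>
  (pr_prime r).ne_one (Nat.dvd_one.1 (Int.natCast_dvd_natCast.1 (by simpa using h)))

theorem Clean.ne_zero {K : ℕ} (hK : 0 < K) {J : ℤ} (h : Clean K J) : J ≠ 0 :=
  fun e => h 0 hK (e ▸ dvd_zero _)

theorem Clean.pow_dvd_iff {K r : ℕ} {J : ℤ} (hJ : Clean K J) (hr : r < K) (σ : ℕ → ℕ) (a : ℕ) :
    (pr r : ℤ) ^ a ∣ J * val K σ ↔ a ≤ σ r := by
  have hp : Prime (pr r : ℤ) := Nat.prime_iff_prime_int.1 (pr_prime r)
  have split : (val K σ : ℤ) = (pr r : ℤ) ^ σ r *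
      ∏ s ∈ (Finset.range K).erase r, (pr s : ℤ) ^ σ s := by
    rw [Finset.mul_prod_erase _ (fun s => (pr s : ℤ) ^ σ s) (Finset.mem_range.2 hr)]
    simp [val]
  have hrest : ¬ (pr r : ℤ) ∣ J * ∏ s ∈ (Finset.range K).erase r, (pr s : ℤ) ^ σ s := by
    intro h
    rcases hp.dvd_or_dvd h with h | h
    · exact hJ r hr h
    · obtain ⟨s, hs, hd⟩ := (hp.dvd_finsetProd_iff _).1 h
      have := Int.natCast_dvd_natCast.1 (hp.dvd_of_dvd_pow hd)
      exact (Finset.mem_erase.1 hs).1
        (pr_inj ((Nat.prime_dvd_prime_iff_eq (pr_prime r) (pr_prime s)).1 this).symm)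
  constructor
  · intro h
    by_contra hlt
    rw [split, mul_left_comm] at h
    refine hrest ((mul_dvd_mul_iff_left (pow_ne_zero (σ r) hp.ne_zero)).1 (dvd_trans ?_ h))
    rw [← pow_succ]
    exact pow_dvd_pow _ (by omega)
  · intro h
    rw [split]
    exact (dvd_mul_of_dvd_left (pow_dvd_pow _ h) _).mul_left _

/-- The registers held by an integer. -/
noncomputable def envOf (K : ℕ) (R : ℤ) (r : ℕ) : ℕ :=
  if r < K then Nat.findGreatest (fun a => pr r ^ a ∣ R.natAbs) R.natAbs else 0

theorem envOf_mul_val {K r : ℕ} {J : ℤ} (hJ : Clean K J) (hr : r < K) (σ : ℕ → ℕ) :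
    envOf K (J * val K σ) r = σ r := by
  have key : ∀ a, pr r ^ a ∣ (J * val K σ).natAbs ↔ a ≤ σ r := fun a => by
    rw [← hJ.pow_dvd_iff hr σ a, ← Int.natCast_dvd]
    simp
  have hne : J * (val K σ : ℤ) ≠ 0 :=
    mul_ne_zero (hJ.ne_zero (by omega)) (by exact_mod_cast (val_pos K σ).ne')
  have hle : σ r ≤ (J * val K σ).natAbs :=
    ((Nat.lt_pow_self (pr_prime r).one_lt).trans_le
      (Nat.le_of_dvd (Int.natAbs_pos.2 hne) ((key _).2 le_rfl))).le
  rw [envOf, if_pos hr, Nat.findGreatest_eq_iff]
  exact ⟨hle, fun _ => (key _).2 le_rfl, fun n h1 _ h2 => by have := (key n).1 h2; omega⟩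

theorem exists_clean {K : ℕ} {R : ℤ} (hR : R ≠ 0) :
    ∃ J, Clean K J ∧ R = J * val K (envOf K R) := by
  have hspec : ∀ r < K, pr r ^ envOf K R r ∣ R.natAbs := fun r hr => by
    rw [envOf, if_pos hr]
    exact Nat.findGreatest_spec (P := fun a => pr r ^ a ∣ R.natAbs) (Nat.zero_le _) (by simp)
  have hdvd : val K (envOf K R) ∣ R.natAbs := by
    refine Finset.prod_dvd_of_isRelPrime (fun r _ s _ hrs => ?_) fun r hr =>
      hspec r (Finset.mem_range.1 hr)
    exact (Nat.coprime_iff_isRelPrime.1 (((Nat.coprime_primes (pr_prime r) (pr_prime s)).2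
      fun h => hrs (pr_inj h)).pow _ _))
  obtain ⟨J, hJ⟩ := Int.natCast_dvd.2 hdvd
  refine ⟨J, fun r hr hd => ?_, by rw [mul_comm]; exact hJ⟩
  have h1 : (pr r : ℤ) ^ envOf K R r ∣ (val K (envOf K R) : ℤ) := by
    exact_mod_cast Finset.dvd_prod_of_mem (fun s => pr s ^ envOf K R s) (Finset.mem_range.2 hr)
  have h2 : pr r ^ (envOf K R r + 1) ∣ R.natAbs := by
    rw [← Int.natCast_dvd]
    push_cast
    rw [pow_succ]
    conv_rhs => rw [hJ]
    exact mul_dvd_mul h1 hd
  have h3 : envOf K R r + 1 ≤ R.natAbs :=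
    ((Nat.lt_pow_self (pr_prime r).one_lt).trans_le
      (Nat.le_of_dvd (Int.natAbs_pos.2 hR) h2)).le
  have h4 := Nat.le_findGreatest (P := fun a => pr r ^ a ∣ R.natAbs) h3 h2
  simp only [envOf, if_pos hr] at h4
  omega

/-- Two registers fit in the bit size. -/
theorem add_le_size {K a b : ℕ} (ha : a < K) (hb : b < K) (hab : a ≠ b) {J : ℤ} (hJ : Clean K J)
    (σ : ℕ → ℕ) : σ a + σ b ≤ Nat.size (J * val K σ).natAbs := by
  have h1 : pr a ^ σ a * pr b ^ σ b ∣ val K σ := by
    rw [← Finset.prod_pair (f := fun r => pr r ^ σ r) hab]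
    exact Finset.prod_dvd_prod_of_subset _ _ _ (by simp [Finset.insert_subset_iff, ha, hb])
  have h2 : 2 ^ (σ a + σ b) ≤ val K σ := by
    refine le_trans ?_ (Nat.le_of_dvd (val_pos K σ) h1)
    rw [pow_add]
    exact Nat.mul_le_mul (Nat.pow_le_pow_left (pr_prime a).two_le _)
      (Nat.pow_le_pow_left (pr_prime b).two_le _)
  have h3 : 2 ^ (σ a + σ b) ≤ (J * val K σ).natAbs := by
    rw [Int.natAbs_mul, Int.natAbs_natCast]
    exact h2.trans (Nat.le_mul_of_pos_left _ (Int.natAbs_pos.2 (hJ.ne_zero (by omega))))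
  exact (Nat.lt_size.2 h3).le

/-- An operation `(m, dv, yes, no)`. -/
abbrev Op := ℕ × ℕ × ℕ × ℕ

/-- The effect of an operation: the next label and the next `R`. -/
def opStep (o : Op) (R : ℤ) : ℕ × ℤ :=
  if (o.2.1 : ℤ) ∣ R then (o.2.2.1, R / (o.2.1 : ℤ) * (o.1 : ℤ)) else (o.2.2.2, R)

/-- If register `d` is not zero, decrement it, increment those in `a`, and go to `yes`. -/
noncomputable def mkOp (d : Option ℕ) (a : List ℕ) (yes no : ℕ) : Op :=
  ((a.map pr).prod, d.elim 1 pr, yes, no)

/-- The registers after such an operation. -/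
def after (d : Option ℕ) (a : List ℕ) (σ : ℕ → ℕ) : ℕ → ℕ :=
  fun s => (σ s - if d = some s then 1 else 0) + a.count s

theorem after_inc (r : ℕ) (σ : ℕ → ℕ) : after none [r] σ = update σ r (σ r + 1) := by
  funext s
  by_cases h : s = r
  · subst h; simp [after]
  · simp [after, h, Ne.symm h]

theorem after_dec (r : ℕ) (σ : ℕ → ℕ) : after (some r) [] σ = update σ r (σ r - 1) := by
  funext s
  by_cases h : s = r
  · subst h; simp [after]
  · simp [after, h, Ne.symm h]

theorem after_none (σ : ℕ → ℕ) : after none [] σ = σ := by funext s; simp [after]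

variable {K : ℕ} {J : ℤ}

theorem opStep_no {r : ℕ} (hr : r < K) (hJ : Clean K J) {σ : ℕ → ℕ} (h : σ r = 0) (a : List ℕ)
    (yes no : ℕ) : opStep (mkOp (some r) a yes no) (J * val K σ) = (no, J * val K σ) := by
  refine if_neg fun hd => ?_
  have := (hJ.pow_dvd_iff hr σ 1).1 (by simpa [mkOp] using hd)
  omega

theorem opStep_yes {d : Option ℕ} {a : List ℕ} (hd : ∀ r, d = some r → r < K)
    (ha : ∀ r ∈ a, r < K) {σ : ℕ → ℕ} (h : ∀ r, d = some r → σ r ≠ 0)
    (yes no : ℕ) : opStep (mkOp d a yes no) (J * val K σ) = (yes, J * val K (after d a σ)) := by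
  have hσ : val K σ = val K (fun s => σ s - if d = some s then 1 else 0) * d.elim 1 pr := by
    cases d with
    | none => simp [val]
    | some r =>
      rw [Option.elim_some, ← pow_one (pr r), ← val_single (hd r rfl) 1, ← val_add]
      refine val_congr fun s _ => ?_
      by_cases hs : s = r
      · subst hs; have := h s rfl; simp; omega
      · simp [hs, Ne.symm hs]
  have hpos : ((d.elim 1 pr : ℕ) : ℤ) ≠ 0 := by
    cases d <;> simp [(pr_prime _).ne_zero]
  unfold opStep mkOp
  dsimp only
  rw [hσ, if_pos ⟨J * val K (fun s => σ s - if d = some s then 1 else 0), by push_cast; ring⟩]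
  unfold after
  rw [val_add, val_count ha]
  push_cast
  rw [← mul_assoc, Int.mul_ediv_cancel _ hpos, mul_assoc]

/-- One move of the register machine given by a list of operations. -/
def cstep (O : List Op) (c : ℕ × ℤ) : Option (ℕ × ℤ) := O[c.1]?.map fun o => opStep o c.2

/-- Moves made from labels in `[lo, hi)`. -/
def Run (O : List Op) (lo hi : ℕ) : ℕ × ℤ → ℕ × ℤ → Prop :=
  Relation.ReflTransGen fun a b => lo ≤ a.1 ∧ a.1 < hi ∧ cstep O a = some b

theorem Run.mono {O : List Op} {lo hi lo' hi' : ℕ} {a b : ℕ × ℤ} (h : Run O lo hi a b)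
    (h1 : lo' ≤ lo) (h2 : hi ≤ hi') : Run O lo' hi' a b :=
  Relation.ReflTransGen.mono
    (fun _ _ h => ⟨h1.trans h.1, h.2.1.trans_le h2, h.2.2⟩) _ _ h

theorem Run.single {O : List Op} {lo hi s : ℕ} {R : ℤ} {o : Op} {b : ℕ × ℤ}
    (h1 : lo ≤ s) (h2 : s < hi) (ho : O[s]? = some o) (hb : opStep o R = b) :
    Run O lo hi (s, R) b :=
  Relation.ReflTransGen.single ⟨h1, h2, by simp [cstep, ho, hb]⟩

namespace Cmd

/-- The number of operations. -/
def len : Cmd → ℕ
  | .skip => 1
  | .inc _ => 1
  | .dec _ => 1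
  | .seq p q => p.len + q.len
  | .loop _ p => p.len + 1

theorem len_pos : ∀ p : Cmd, 0 < p.len
  | .skip => Nat.one_pos
  | .inc _ => Nat.one_pos
  | .dec _ => Nat.one_pos
  | .seq p q => by have := p.len_pos; simp [len]; omega
  | .loop _ p => by simp [len]

/-- The registers a program may increase. -/
def Incs : Cmd → ℕ → Prop
  | .skip, _ => False
  | .inc r, s => s = r
  | .dec _, _ => False
  | .seq p q, s => p.Incs s ∨ q.Incs s
  | .loop _ p, s => p.Incs s

theorem Incs.writes : ∀ {p : Cmd} {s : ℕ}, p.Incs s → p.Writes s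
  | .inc _, _, h => h
  | .seq p q, _, h => h.imp (fun h => Incs.writes (p := p) h) (fun h => Incs.writes (p := q) h)
  | .loop _ p, _, h => .inr (Incs.writes (p := p) h)

/-- The operations of a program placed at `off`, continuing at `exit`. -/
noncomputable def flat : Cmd → ℕ → ℕ → List Op
  | .skip, _, e => [mkOp none [] e e]
  | .inc r, _, e => [mkOp none [r] e e]
  | .dec r, _, e => [mkOp (some r) [] e e]
  | .seq p q, off, e => p.flat off (off + p.len) ++ q.flat (off + p.len) e
  | .loop r p, off, e => mkOp (some r) [] (off + 1) e :: p.flat (off + 1) off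

theorem length_flat : ∀ (p : Cmd) (off e : ℕ), (p.flat off e).length = p.len
  | .skip, _, _ => rfl
  | .inc _, _, _ => rfl
  | .dec _, _, _ => rfl
  | .seq p q, _, _ => by simp [flat, len, length_flat p, length_flat q]
  | .loop _ p, _, _ => by simp [flat, len, length_flat p]

theorem primrec_flat : ∀ p : Cmd, Primrec fun z : ℕ × ℕ => p.flat z.1 z.2
  | .skip => (Primrec.list_cons.comp ((Primrec.const _).pair ((Primrec.const _).pair
      (Primrec.snd.pair Primrec.snd))) (Primrec.const [])).of_eq fun _ => rfl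
  | .inc r => (Primrec.list_cons.comp ((Primrec.const _).pair ((Primrec.const _).pair
      (Primrec.snd.pair Primrec.snd))) (Primrec.const [])).of_eq fun _ => rfl
  | .dec r => (Primrec.list_cons.comp ((Primrec.const _).pair ((Primrec.const _).pair
      (Primrec.snd.pair Primrec.snd))) (Primrec.const [])).of_eq fun _ => rfl
  | .seq p q =>
    have hm := Primrec.nat_add.comp Primrec.fst (Primrec.const (α := ℕ × ℕ) p.len)
    (Primrec.list_append.comp ((primrec_flat p).comp (Primrec.fst.pair hm))
      ((primrec_flat q).comp (hm.pair Primrec.snd))).of_eq fun _ => rfl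
  | .loop r p =>
    have hm := Primrec.nat_add.comp Primrec.fst (Primrec.const (α := ℕ × ℕ) 1)
    (Primrec.list_cons.comp ((Primrec.const _).pair ((Primrec.const _).pair
      (hm.pair Primrec.snd))) ((primrec_flat p).comp (hm.pair Primrec.fst))).of_eq fun _ => rfl

/-- `O` contains the program at `off`, continuing at `e`. -/
def Placed (O : List Op) : Cmd → ℕ → ℕ → Prop
  | .skip, off, e => O[off]? = some (mkOp none [] e e)
  | .inc r, off, e => O[off]? = some (mkOp none [r] e e)
  | .dec r, off, e => O[off]? = some (mkOp (some r) [] e e)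
  | .seq p q, off, e => Placed O p off (off + p.len) ∧ Placed O q (off + p.len) e
  | .loop r p, off, e => O[off]? = some (mkOp (some r) [] (off + 1) e) ∧ Placed O p (off + 1) off

theorem placed_flat : ∀ (p : Cmd) (pre suf : List Op) (e : ℕ),
    Placed (pre ++ (p.flat pre.length e ++ suf)) p pre.length e
  | .skip, pre, suf, e => by simp [Placed, flat]
  | .inc _, pre, suf, e => by simp [Placed, flat]
  | .dec _, pre, suf, e => by simp [Placed, flat]
  | .seq p q, pre, suf, e => by
      have hl : (pre ++ p.flat pre.length (pre.length + p.len)).length = pre.length + p.len := by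
        simp [length_flat]
      refine ⟨?_, ?_⟩
      · have := placed_flat p pre (q.flat (pre.length + p.len) e ++ suf) (pre.length + p.len)
        simpa [flat, List.append_assoc] using this
      · have := placed_flat q (pre ++ p.flat pre.length (pre.length + p.len)) suf e
        rw [hl] at this
        simpa [flat, List.append_assoc] using this
  | .loop r p, pre, suf, e => by
      refine ⟨by simp [flat], ?_⟩
      have := placed_flat p (pre ++ [mkOp (some r) [] (pre.length + 1) e]) suf pre.length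
      simpa [flat, List.append_assoc] using this

/-- The shape of the operations of a placed program. -/
theorem Placed.op {O : List Op} {K : ℕ} : ∀ {p : Cmd} {off e : ℕ}, Placed O p off e →
    p.regs ≤ K → ∀ {s : ℕ}, off ≤ s → s < off + p.len → ∃ d a yes no,
      O[s]? = some (mkOp d a yes no) ∧ (∀ r, d = some r → r < K) ∧
      (∀ r ∈ a, r < K ∧ p.Incs r) ∧ (yes = e ∨ off ≤ yes ∧ yes < off + p.len) ∧
      (no = e ∨ off ≤ no ∧ no < off + p.len)
  | .skip, off, e, h, _, s, h1, h2 => by
    obtain rfl : s = off := by simp [len] at h2; omega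
    exact ⟨none, [], e, e, h, by simp, by simp, .inl rfl, .inl rfl⟩
  | .inc r, off, e, h, hK, s, h1, h2 => by
    obtain rfl : s = off := by simp [len] at h2; omega
    refine ⟨none, [r], e, e, h, by simp, ?_, .inl rfl, .inl rfl⟩
    simp [regs] at hK
    simp [Incs]
    omega
  | .dec r, off, e, h, hK, s, h1, h2 => by
    obtain rfl : s = off := by simp [len] at h2; omega
    refine ⟨some r, [], e, e, h, ?_, by simp, .inl rfl, .inl rfl⟩
    simp [regs] at hK
    simp
    omega
  | .seq p q, off, e, h, hK, s, h1, h2 => by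
    simp only [regs, max_le_iff] at hK
    simp only [len] at h2 ⊢
    by_cases hs : s < off + p.len
    · obtain ⟨d, a, y, n, ho, hd, ha, hy, hn⟩ := Placed.op h.1 hK.1 h1 hs
      have := q.len_pos
      refine ⟨d, a, y, n, ho, hd, fun r hr => ⟨(ha r hr).1, .inl (ha r hr).2⟩, ?_, ?_⟩
      · rcases hy with hy | hy <;> (right; omega)
      · rcases hn with hn | hn <;> (right; omega)
    · obtain ⟨d, a, y, n, ho, hd, ha, hy, hn⟩ := Placed.op h.2 hK.2 (by omega) (by omega : s < off + p.len + q.len)
      refine ⟨d, a, y, n, ho, hd, fun r hr => ⟨(ha r hr).1, .inr (ha r hr).2⟩, ?_, ?_⟩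
      · exact hy.imp id fun h => by omega
      · exact hn.imp id fun h => by omega
  | .loop r p, off, e, h, hK, s, h1, h2 => by
    simp only [regs, max_le_iff] at hK
    simp only [len] at h2 ⊢
    by_cases hs : s = off
    · subst hs
      have := p.len_pos
      exact ⟨some r, [], s + 1, e, h.1, by simp; omega, by simp, .inr (by omega), .inl rfl⟩
    · obtain ⟨d, a, y, n, ho, hd, ha, hy, hn⟩ := Placed.op h.2 hK.2 (by omega) (by omega : s < off + 1 + p.len)
      refine ⟨d, a, y, n, ho, hd, fun r hr => ⟨(ha r hr).1, (ha r hr).2⟩, ?_, ?_⟩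
      · rcases hy with hy | hy <;> (right; omega)
      · rcases hn with hn | hn <;> (right; omega)

end Cmd

/-- A terminating program is simulated between its ends. -/
theorem Exec.run {O : List Op} {p : Cmd} {σ σ' : ℕ → ℕ} (h : Exec p σ σ') (hJ : Clean K J) :
    ∀ {off e : ℕ}, p.Placed O off e → p.regs ≤ K →
      Run O off (off + p.len) (off, J * val K σ) (e, J * val K σ') := by
  induction h with
  | skip σ =>
    intro off e hp _
    refine Run.single le_rfl (by simp [Cmd.len]) hp ?_
    rw [opStep_yes (by simp) (by simp) (by simp), after_none]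
  | inc r σ =>
    intro off e hp hK
    refine Run.single le_rfl (by simp [Cmd.len]) hp ?_
    simp only [Cmd.regs] at hK
    rw [opStep_yes (by simp) (by simp; omega) (by simp), after_inc]
  | dec r σ =>
    intro off e hp hK
    refine Run.single le_rfl (by simp [Cmd.len]) hp ?_
    simp only [Cmd.regs] at hK
    by_cases hr : σ r = 0
    · rw [opStep_no (by omega) hJ hr, hr, Nat.zero_sub, update_eq_self_iff.2 hr.symm]
    · rw [opStep_yes (by simp; omega) (by simp) (by simpa using hr), after_dec]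
  | @seq p q σ σ₁ σ₂ _ _ ihp ihq =>
    intro off e hp hK
    simp only [Cmd.regs, max_le_iff] at hK
    exact ((ihp hp.1 hK.1).mono le_rfl (by simp [Cmd.len])).trans
      ((ihq hp.2 hK.2).mono (by omega) (by simp [Cmd.len]; omega))
  | @loopStop r p σ hr =>
    intro off e hp hK
    simp only [Cmd.regs, max_le_iff] at hK
    exact Run.single le_rfl (by simp [Cmd.len]) hp.1 (opStep_no (by omega) hJ hr ..)
  | @loopStep r m p σ σ₁ σ₂ hr _ _ ihp ihl =>
    intro off e hp hK
    have hK' := hK
    simp only [Cmd.regs, max_le_iff] at hK'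
    have h1 : Run O off (off + (Cmd.loop r p).len) (off, J * val K σ)
        (off + 1, J * val K (update σ r m)) := by
      refine Run.single le_rfl (by simp [Cmd.len]) hp.1 ?_
      rw [opStep_yes (by simp; omega) (by simp) (by simp; omega), after_dec, hr,
        Nat.add_sub_cancel]
    exact (h1.trans ((ihp hp.2 hK'.2).mono (by omega) (by simp [Cmd.len]; omega))).trans
      (ihl hp hK)

/-- A safe program reaches its exit from every label and every content of the registers. -/
theorem Cmd.Safe.run {O : List Op} (hJ : Clean K J) : ∀ {p : Cmd}, p.Safe → ∀ {off e : ℕ},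
    p.Placed O off e → p.regs ≤ K → ∀ {s : ℕ}, off ≤ s → s < off + p.len → ∀ σ,
      ∃ σ', Run O off (off + p.len) (s, J * val K σ) (e, J * val K σ')
  | .skip, hs, off, e, hp, hK, s, h1, h2, σ => by
    obtain rfl : s = off := by simp [len] at h2; omega
    exact ⟨_, (Exec.skip σ).run hJ hp hK⟩
  | .inc r, hs, off, e, hp, hK, s, h1, h2, σ => by
    obtain rfl : s = off := by simp [len] at h2; omega
    exact ⟨_, (Exec.inc r σ).run hJ hp hK⟩
  | .dec r, hs, off, e, hp, hK, s, h1, h2, σ => by
    obtain rfl : s = off := by simp [len] at h2; omega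
    exact ⟨_, (Exec.dec r σ).run hJ hp hK⟩
  | .seq p q, hs, off, e, hp, hK, s, h1, h2, σ => by
    simp only [regs, max_le_iff] at hK
    simp only [len] at h2 ⊢
    by_cases hs' : s < off + p.len
    · obtain ⟨σ₁, r₁⟩ := Cmd.Safe.run hJ hs.1 hp.1 hK.1 h1 hs' σ
      obtain ⟨σ₂, e₂⟩ := hs.2.total σ₁
      exact ⟨σ₂, (r₁.mono le_rfl (by omega)).trans
        ((e₂.run hJ hp.2 hK.2).mono (by omega) (by omega))⟩
    · obtain ⟨σ₂, r₂⟩ := Cmd.Safe.run hJ hs.2 hp.2 hK.2 (s := s) (by omega) (by omega) σ
      exact ⟨σ₂, r₂.mono (by omega) (by omega)⟩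
  | .loop r p, hs, off, e, hp, hK, s, h1, h2, σ => by
    have hK' := hK
    simp only [regs, max_le_iff] at hK'
    simp only [len] at h2 ⊢
    by_cases hs' : s = off
    · subst hs'
      obtain ⟨σ', e'⟩ := Cmd.Safe.total (p := .loop r p) hs σ
      exact ⟨σ', e'.run hJ hp hK⟩
    · obtain ⟨σ₁, r₁⟩ := Cmd.Safe.run hJ hs.2 hp.2 hK'.2 (s := s) (by omega) (by omega) σ
      obtain ⟨σ₂, e₂⟩ := Cmd.Safe.total (p := .loop r p) hs σ₁
      exact ⟨σ₂, (r₁.mono (by omega) (by omega)).trans (e₂.run hJ hp hK)⟩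

end Vale.Agent.P193.Machine
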