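import Vale.Agent.P193.C.Defs
import Vale.Agent.P193.Machine.Registers
import Vale.Agent.P193.Machine.IntPrim

/-!
# P193 machine: a register program with a reader, as affine moves

Label `s` with register number `R` is the second coordinate `s + S * R`. At label `0` a move of
the list `rd` removes the lowest base-`B` digit of the first coordinate; at any other label the
first coordinate stays and one operation of the list `O` is done.
-/

namespace Vale.Agent.P193.Machine

open C (Pt Move Step base encode)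

/-- A reader move `(digit, target, multiplier)`. -/
abbrev Read := ℕ × ℕ × ℕ

/-- A reader program: the base, the reader moves, the operations. -/
structure Sys where
  B : ℕ
  rd : List Read
  O : List Op

namespace Sys

/-- The number of labels; the last two have no operation. -/
def S (Y : Sys) : ℕ := Y.O.length + 2

/-- The second coordinate of a label and a register number. -/
def pt (Y : Sys) (s : ℕ) (R : ℤ) : ℤ := R * (Y.S : ℤ) + (s : ℤ)

/-- The rule of a reader move. -/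
def readRule (Y : Sys) (t : Read) : Move :=
  ⟨Y.B - 1, Y.S - 1, 0, Y.S * t.2.2 - 1, (t.1 : ℕ), ((0 : ℕ) : ℤ), ((0 : ℕ) : ℤ), (t.2.1 : ℕ)⟩

/-- The rule of an operation, divisible case. -/
def yesRule (Y : Sys) (s : ℕ) (o : Op) : Move :=
  ⟨0, Y.S * o.2.1 - 1, 0, Y.S * o.1 - 1, ((0 : ℕ) : ℤ), (s : ℕ), ((0 : ℕ) : ℤ), (o.2.2.1 : ℕ)⟩

/-- The rule of an operation, residue `j` case. -/
def noRule (Y : Sys) (s : ℕ) (o : Op) (j : ℕ) : Move :=
  ⟨0, Y.S * o.2.1 - 1, 0, Y.S * o.2.1 - 1, ((0 : ℕ) : ℤ), ((s + Y.S * j : ℕ) : ℤ),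
    ((0 : ℕ) : ℤ), ((o.2.2.2 + Y.S * j : ℕ) : ℤ)⟩

/-- The rules of one operation. -/
def opRules (Y : Sys) (s : ℕ) (o : Op) : List Move :=
  Y.yesRule s o :: (List.range (o.2.1 - 1)).map fun j => Y.noRule s o (j + 1)

/-- All rules. -/
def rules (Y : Sys) : List Move :=
  Y.rd.map Y.readRule ++ (List.range Y.O.length).flatMap fun s =>
    if s = 0 then [] else (Y.O[s]?.map (Y.opRules s)).getD []

/-- Well-formedness. -/
structure WF (Y : Sys) : Prop where
  B_lt : 1 < Y.B
  digit : ∀ t ∈ Y.rd, t.1 < Y.B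
  nodup : (Y.rd.map (·.1)).Nodup
  read : ∀ t ∈ Y.rd, t.2.1 < Y.S ∧ 0 < t.2.2
  op : ∀ (s : ℕ) (o : Op), s ≠ 0 → Y.O[s]? = some o →
    0 < o.1 ∧ 0 < o.2.1 ∧ o.2.2.1 < Y.S ∧ o.2.2.2 < Y.S

/-- The label of a second coordinate. -/
def lab (Y : Sys) (y : ℤ) : ℕ := (y % (Y.S : ℤ)).toNat

/-- The register number of a second coordinate. -/
def reg (Y : Sys) (y : ℤ) : ℤ := y / (Y.S : ℤ)

/-- The move from a point. -/
def next (Y : Sys) (z : Pt) : Option Pt :=
  if Y.lab z.2 = 0 then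
    (Y.rd.find? fun t => (z.1 % (Y.B : ℤ)).toNat == t.1).map fun t =>
      (z.1 / (Y.B : ℤ), Y.pt t.2.1 (Y.reg z.2 * (t.2.2 : ℤ)))
  else Y.O[Y.lab z.2]?.map fun o =>
    (z.1, Y.pt (opStep o (Y.reg z.2)).1 (opStep o (Y.reg z.2)).2)

variable {Y : Sys}

theorem S_pos (Y : Sys) : 0 < Y.S := Nat.succ_pos _

theorem lab_pt {s : ℕ} (h : s < Y.S) (R : ℤ) : Y.lab (Y.pt s R) = s := by
  have : Y.pt s R % (Y.S : ℤ) = (s : ℤ) := by
    rw [pt, Int.add_comm, Int.add_mul_emod_self_right]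
    exact Int.emod_eq_of_lt (by omega) (by exact_mod_cast h)
  simp [lab, this]

theorem reg_pt {s : ℕ} (h : s < Y.S) (R : ℤ) : Y.reg (Y.pt s R) = R := by
  rw [reg, pt, Int.add_comm, Int.add_mul_ediv_right _ _ (by have := Y.S_pos; omega),
    Int.ediv_eq_zero_of_lt (by omega) (by exact_mod_cast h), zero_add]

theorem pt_lab_reg (Y : Sys) (y : ℤ) : Y.pt (Y.lab y) (Y.reg y) = y := by
  rw [pt, lab, reg, Int.toNat_of_nonneg (Int.emod_nonneg _ (by have := Y.S_pos; omega))]
  exact Int.ediv_mul_add_emod y _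

theorem lab_lt (Y : Sys) (y : ℤ) : Y.lab y < Y.S := by
  have := Y.S_pos
  have := Int.emod_lt_of_pos y (show (0 : ℤ) < Y.S by omega)
  simp only [lab]
  omega

theorem eq_pt_iff {s : ℕ} (h : s < Y.S) {y R : ℤ} : y = Y.pt s R ↔ Y.lab y = s ∧ Y.reg y = R :=
  ⟨fun e => e ▸ ⟨lab_pt h R, reg_pt h R⟩, fun ⟨a, b⟩ => by rw [← a, ← b, Y.pt_lab_reg]⟩

/-- Membership in a lattice of second coordinates. -/
theorem dvd_iff {n s j : ℕ} (_hn : 0 < n) (hs : s < Y.S) (hj : j < n) (y : ℤ) :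
    ((Y.S * n : ℕ) : ℤ) ∣ y - ((s + Y.S * j : ℕ) : ℤ) ↔
      Y.lab y = s ∧ Y.reg y % (n : ℤ) = (j : ℤ) := by
  constructor
  · rintro ⟨q, hq⟩
    have e : y = Y.pt s (n * q + j) := by
      simp only [pt]
      push_cast at hq
      linear_combination hq
    obtain ⟨h1, h2⟩ := (eq_pt_iff hs).1 e
    refine ⟨h1, ?_⟩
    rw [h2, Int.add_comm, Int.add_mul_emod_self_left]
    exact Int.emod_eq_of_lt (by omega) (by exact_mod_cast hj)
  · rintro ⟨h1, h2⟩
    refine ⟨Y.reg y / n, ?_⟩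
    have e := Int.ediv_mul_add_emod (Y.reg y) (n : ℤ)
    rw [h2] at e
    conv_lhs => rw [← Y.pt_lab_reg y, h1, ← e]
    simp only [pt]
    push_cast
    ring

theorem sub_one_cast {n : ℕ} (h : 0 < n) : ((n - 1 : ℕ) : ℤ) + 1 = (n : ℤ) := by omega

/-- A reader rule applies exactly to its digit at label `0`. -/
theorem mem_readRule (hY : Y.WF) {t : Read} (ht : t ∈ Y.rd) (z : Pt) :
    (Y.readRule t).Mem z ↔ Y.lab z.2 = 0 ∧ (z.1 % (Y.B : ℤ)).toNat = t.1 := by
  have hB := hY.B_lt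
  have hd := hY.digit t ht
  simp only [Move.Mem, readRule, sub_one_cast Y.S_pos, sub_one_cast (show 0 < Y.B by omega)]
  have h0 := dvd_iff (Y := Y) (n := 1) (s := 0) (j := 0) Nat.one_pos Y.S_pos Nat.one_pos z.2
  simp only [Nat.mul_one, Nat.mul_zero, Nat.add_zero, Nat.cast_one, Int.emod_one] at h0
  rw [h0]
  have e1 : (Y.B : ℤ) ∣ z.1 - (t.1 : ℤ) ↔ (z.1 % (Y.B : ℤ)).toNat = t.1 := by
    rw [← Int.emod_eq_emod_iff_emod_sub_eq_zero.trans Int.dvd_iff_emod_eq_zero.symm,
      Int.emod_eq_of_lt (a := (t.1 : ℤ)) (by omega) (by exact_mod_cast hd)]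
    have := Int.emod_nonneg z.1 (show (Y.B : ℤ) ≠ 0 by omega)
    omega
  rw [e1]
  exact ⟨fun h => ⟨h.2.1, h.1⟩, fun h => ⟨h.2, h.1, by simp⟩⟩

theorem app_readRule (hY : Y.WF) {t : Read} (ht : t ∈ Y.rd) {z : Pt}
    (hm : (Y.readRule t).Mem z) :
    (Y.readRule t).app z = (z.1 / (Y.B : ℤ), Y.pt t.2.1 (Y.reg z.2 * (t.2.2 : ℤ))) := by
  have hB := hY.B_lt
  have hd := hY.digit t ht
  obtain ⟨hl, hx⟩ := (mem_readRule hY ht z).1 hm
  have hx' : z.1 % (Y.B : ℤ) = (t.1 : ℤ) := by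
    have := Int.emod_nonneg z.1 (show (Y.B : ℤ) ≠ 0 by omega)
    omega
  simp only [Move.app, readRule, sub_one_cast Y.S_pos, sub_one_cast (show 0 < Y.B by omega),
    sub_one_cast (Nat.mul_pos Y.S_pos (hY.read t ht).2)]
  refine Prod.ext ?_ ?_
  · simp only [Nat.cast_zero, zero_add, one_mul]
    rw [← hx', Int.emod_def, sub_sub_cancel, Int.mul_ediv_cancel_left _ (by omega)]
  · conv_lhs => rw [← Y.pt_lab_reg z.2, hl]
    simp only [pt, Nat.cast_zero, add_zero, sub_zero]
    rw [Int.mul_ediv_cancel _ (by have := Y.S_pos; omega)]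
    push_cast
    ring

theorem mem_yesRule (hY : Y.WF) {s : ℕ} {o : Op} (hs : s ≠ 0) (ho : Y.O[s]? = some o) (z : Pt) :
    (Y.yesRule s o).Mem z ↔ Y.lab z.2 = s ∧ (o.2.1 : ℤ) ∣ Y.reg z.2 := by
  have hs' : s < Y.S := (List.getElem?_eq_some_iff.1 ho).1.trans_le (Nat.le_add_right _ 2)
  obtain ⟨_, hdv, _⟩ := hY.op s o hs ho
  have h0 := dvd_iff (Y := Y) (n := o.2.1) (j := 0) hdv hs' hdv z.2
  simp only [Nat.mul_zero, Nat.add_zero, Nat.cast_zero] at h0
  simp only [Move.Mem, yesRule, sub_one_cast (Nat.mul_pos Y.S_pos hdv), h0,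
    Int.dvd_iff_emod_eq_zero]
  simp

theorem mem_noRule (hY : Y.WF) {s : ℕ} {o : Op} (hs : s ≠ 0) (ho : Y.O[s]? = some o) {j : ℕ}
    (hj : j < o.2.1) (z : Pt) :
    (Y.noRule s o j).Mem z ↔ Y.lab z.2 = s ∧ Y.reg z.2 % (o.2.1 : ℤ) = (j : ℤ) := by
  have hs' : s < Y.S := (List.getElem?_eq_some_iff.1 ho).1.trans_le (Nat.le_add_right _ 2)
  obtain ⟨_, hdv, _⟩ := hY.op s o hs ho
  simp only [Move.Mem, noRule, sub_one_cast (Nat.mul_pos Y.S_pos hdv), dvd_iff hdv hs' hj]
  simp

theorem app_yesRule (hY : Y.WF) {s : ℕ} {o : Op} (hs : s ≠ 0) (ho : Y.O[s]? = some o) {z : Pt}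
    (hl : Y.lab z.2 = s) (hd : (o.2.1 : ℤ) ∣ Y.reg z.2) :
    (Y.yesRule s o).app z = (z.1, Y.pt (opStep o (Y.reg z.2)).1 (opStep o (Y.reg z.2)).2) := by
  obtain ⟨hm, hdv, _⟩ := hY.op s o hs ho
  simp only [Move.app, yesRule, sub_one_cast (Nat.mul_pos Y.S_pos hdv),
    sub_one_cast (Nat.mul_pos Y.S_pos hm), opStep, if_pos hd]
  refine Prod.ext (by simp) ?_
  conv_lhs => rw [← Y.pt_lab_reg z.2, hl]
  simp only [pt]
  push_cast
  rw [add_sub_cancel_right, mul_comm (Y.reg z.2) (Y.S : ℤ),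
    Int.mul_ediv_mul_of_pos _ _ (by have := Y.S_pos; omega)]
  ring

theorem app_noRule (hY : Y.WF) {s : ℕ} {o : Op} (hs : s ≠ 0) (ho : Y.O[s]? = some o) {j : ℕ}
    {z : Pt} (hl : Y.lab z.2 = s) (hr : Y.reg z.2 % (o.2.1 : ℤ) = (j : ℤ)) (hj : 0 < j) :
    (Y.noRule s o j).app z = (z.1, Y.pt (opStep o (Y.reg z.2)).1 (opStep o (Y.reg z.2)).2) := by
  obtain ⟨_, hdv, _⟩ := hY.op s o hs ho
  have hnd : ¬ (o.2.1 : ℤ) ∣ Y.reg z.2 := fun h => by
    rw [Int.dvd_iff_emod_eq_zero, hr] at h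
    omega
  simp only [Move.app, noRule, sub_one_cast (Nat.mul_pos Y.S_pos hdv), opStep, if_neg hnd]
  refine Prod.ext (by simp) ?_
  have e := Int.ediv_mul_add_emod (Y.reg z.2) (o.2.1 : ℤ)
  rw [hr] at e
  have hdiv : (z.2 - ((s + Y.S * j : ℕ) : ℤ)) / ((Y.S * o.2.1 : ℕ) : ℤ) =
      Y.reg z.2 / (o.2.1 : ℤ) := by
    refine Int.ediv_eq_of_eq_mul_left (by have := Nat.mul_pos Y.S_pos hdv; omega) ?_
    conv_lhs => rw [← Y.pt_lab_reg z.2, hl, ← e]
    simp only [pt]
    push_cast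
    ring
  rw [hdiv]
  conv_rhs => rw [← e]
  simp only [pt]
  push_cast
  ring

theorem mem_rules {r : Move} : r ∈ Y.rules ↔ (∃ t ∈ Y.rd, r = Y.readRule t) ∨
    ∃ s o, s ≠ 0 ∧ Y.O[s]? = some o ∧
      (r = Y.yesRule s o ∨ ∃ j, 0 < j ∧ j < o.2.1 ∧ r = Y.noRule s o j) := by
  simp only [rules, List.mem_append, List.mem_map, List.mem_flatMap, List.mem_range]
  constructor
  · rintro (⟨t, ht, rfl⟩ | ⟨s, hs, h⟩)
    · exact .inl ⟨t, ht, rfl⟩
    · split_ifs at h with h0
      · simp at h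
      · rw [List.getElem?_eq_getElem hs] at h
        simp only [Option.map_some, Option.getD_some, opRules, List.mem_cons, List.mem_map,
          List.mem_range] at h
        refine .inr ⟨s, _, h0, List.getElem?_eq_getElem hs, ?_⟩
        rcases h with h | ⟨j, hj, h⟩
        exacts [.inl h, .inr ⟨j + 1, by omega, by omega, h.symm⟩]
  · rintro (⟨t, ht, rfl⟩ | ⟨s, o, h0, ho, h⟩)
    · exact .inl ⟨t, ht, rfl⟩
    · refine .inr ⟨s, (List.getElem?_eq_some_iff.1 ho).1, ?_⟩
      simp only [if_neg h0, ho, Option.map_some, Option.getD_some, opRules, List.mem_cons,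
        List.mem_map, List.mem_range]
      rcases h with h | ⟨j, hj, hj', h⟩
      exacts [.inl h, .inr ⟨j - 1, by omega, by rw [h, show j - 1 + 1 = j by omega]⟩]

theorem deterministic (hY : Y.WF) :
    ∀ r ∈ Y.rules, ∀ r' ∈ Y.rules, ∀ z, r.Mem z → r'.Mem z → r = r' := by
  intro r hr r' hr' z hm hm'
  rcases mem_rules.1 hr with ⟨t, ht, rfl⟩ | ⟨s, o, h0, ho, h⟩ <;>
    rcases mem_rules.1 hr' with ⟨t', ht', rfl⟩ | ⟨s', o', h0', ho', h'⟩
  · obtain ⟨-, e1⟩ := (mem_readRule hY ht z).1 hm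
    obtain ⟨-, e2⟩ := (mem_readRule hY ht' z).1 hm'
    rw [List.inj_on_of_nodup_map hY.nodup ht ht' (e1.symm.trans e2)]
  · have e1 := ((mem_readRule hY ht z).1 hm).1
    rcases h' with rfl | ⟨j, _, hj, rfl⟩
    · exact absurd (((mem_yesRule hY h0' ho' z).1 hm').1.symm.trans e1) h0'
    · exact absurd (((mem_noRule hY h0' ho' hj z).1 hm').1.symm.trans e1) h0'
  · have e1 := ((mem_readRule hY ht' z).1 hm').1
    rcases h with rfl | ⟨j, _, hj, rfl⟩
    · exact absurd (((mem_yesRule hY h0 ho z).1 hm).1.symm.trans e1) h0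
    · exact absurd (((mem_noRule hY h0 ho hj z).1 hm).1.symm.trans e1) h0
  · rcases h with rfl | ⟨j, hj0, hj, rfl⟩ <;> rcases h' with rfl | ⟨j', hj0', hj', rfl⟩
    · obtain ⟨a, -⟩ := (mem_yesRule hY h0 ho z).1 hm
      obtain ⟨a', -⟩ := (mem_yesRule hY h0' ho' z).1 hm'
      obtain rfl := a.symm.trans a'
      rw [Option.some_inj.1 (ho.symm.trans ho')]
    · obtain ⟨a, b⟩ := (mem_yesRule hY h0 ho z).1 hm
      obtain ⟨a', b'⟩ := (mem_noRule hY h0' ho' hj' z).1 hm'
      obtain rfl := a.symm.trans a'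
      obtain rfl := Option.some_inj.1 (ho.symm.trans ho')
      rw [Int.dvd_iff_emod_eq_zero, b'] at b
      omega
    · obtain ⟨a, b⟩ := (mem_noRule hY h0 ho hj z).1 hm
      obtain ⟨a', b'⟩ := (mem_yesRule hY h0' ho' z).1 hm'
      obtain rfl := a.symm.trans a'
      obtain rfl := Option.some_inj.1 (ho.symm.trans ho')
      rw [Int.dvd_iff_emod_eq_zero, b] at b'
      omega
    · obtain ⟨a, b⟩ := (mem_noRule hY h0 ho hj z).1 hm
      obtain ⟨a', b'⟩ := (mem_noRule hY h0' ho' hj' z).1 hm'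
      obtain rfl := a.symm.trans a'
      obtain rfl := Option.some_inj.1 (ho.symm.trans ho')
      rw [show j = j' by have := b.symm.trans b'; omega]

/-- The step relation is the function `next`. -/
theorem step_iff (hY : Y.WF) {z w : Pt} : Step Y.rules z w ↔ Y.next z = some w := by
  constructor
  · rintro ⟨r, hr, hm, rfl⟩
    rcases mem_rules.1 hr with ⟨t, ht, rfl⟩ | ⟨s, o, h0, ho, rfl | ⟨j, hj0, hj, rfl⟩⟩
    · obtain ⟨e1, e2⟩ := (mem_readRule hY ht z).1 hm
      have hf : (Y.rd.find? fun t => (z.1 % (Y.B : ℤ)).toNat == t.1) = some t := by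
        cases hc : Y.rd.find? fun t => (z.1 % (Y.B : ℤ)).toNat == t.1 with
        | none => exact absurd e2 (by simpa using List.find?_eq_none.1 hc t ht)
        | some t' =>
          have h1 := List.find?_some hc
          simp only [beq_iff_eq] at h1
          rw [List.inj_on_of_nodup_map hY.nodup (List.mem_of_find?_eq_some hc) ht
            (h1.symm.trans e2)]
      rw [app_readRule hY ht hm, next, if_pos e1, hf, Option.map_some]
    · obtain ⟨e1, e2⟩ := (mem_yesRule hY h0 ho z).1 hm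
      rw [app_yesRule hY h0 ho e1 e2, next, if_neg (e1 ▸ h0), e1, ho, Option.map_some]
    · obtain ⟨e1, e2⟩ := (mem_noRule hY h0 ho hj z).1 hm
      rw [app_noRule hY h0 ho e1 e2 hj0, next, if_neg (e1 ▸ h0), e1, ho, Option.map_some]
  · intro h
    unfold next at h
    split_ifs at h with h0
    · obtain ⟨t, hf, rfl⟩ := Option.map_eq_some_iff.1 h
      have ht := List.mem_of_find?_eq_some hf
      have hm : (Y.readRule t).Mem z :=
        (mem_readRule hY ht z).2 ⟨h0, by simpa using List.find?_some hf⟩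
      exact ⟨_, mem_rules.2 (.inl ⟨t, ht, rfl⟩), hm, app_readRule hY ht hm⟩
    · obtain ⟨o, ho, rfl⟩ := Option.map_eq_some_iff.1 h
      by_cases hd : (o.2.1 : ℤ) ∣ Y.reg z.2
      · exact ⟨_, mem_rules.2 (.inr ⟨_, o, h0, ho, .inl rfl⟩),
          (mem_yesRule hY h0 ho z).2 ⟨rfl, hd⟩, app_yesRule hY h0 ho rfl hd⟩
      · obtain ⟨_, hdv, _⟩ := hY.op _ o h0 ho
        have h1 := Int.emod_nonneg (Y.reg z.2) (show (o.2.1 : ℤ) ≠ 0 by omega)
        have h2 := Int.emod_lt_of_pos (Y.reg z.2) (show (0 : ℤ) < o.2.1 by omega)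
        rw [Int.dvd_iff_emod_eq_zero] at hd
        obtain ⟨j, hj⟩ := Int.eq_ofNat_of_zero_le h1
        exact ⟨_, mem_rules.2 (.inr ⟨_, o, h0, ho, .inr ⟨j, by omega, by omega, rfl⟩⟩),
          (mem_noRule hY h0 ho (by omega) z).2 ⟨rfl, hj⟩,
          app_noRule hY h0 ho rfl hj (by omega)⟩

/-- The rules are listed once each. -/
theorem nodup_rules (hY : Y.WF) : Y.rules.Nodup := by
  have hS := Y.S_pos
  have hkey : ∀ {s o s' o' : _} {r : Move}, s ≠ 0 → Y.O[s]? = some o → Y.O[s']? = some o' →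
      r ∈ Y.opRules s o → r ∈ Y.opRules s' o' → s = s' := by
    intro s o s' o' r h0 ho ho' hr hr'
    have hs : s < Y.S := (List.getElem?_eq_some_iff.1 ho).1.trans_le (Nat.le_add_right _ 2)
    have hs' : s' < Y.S := (List.getElem?_eq_some_iff.1 ho').1.trans_le (Nat.le_add_right _ 2)
    have key : ∀ {t : ℕ} {q : Op}, r ∈ Y.opRules t q → ∃ j : ℕ, r.b = ((t + Y.S * j : ℕ) : ℤ) := by
      intro t q h
      simp only [opRules, List.mem_cons, List.mem_map] at h
      rcases h with rfl | ⟨j, -, rfl⟩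
      exacts [⟨0, by simp [yesRule]⟩, ⟨j + 1, rfl⟩]
    obtain ⟨j, hj⟩ := key hr
    obtain ⟨j', hj'⟩ := key hr'
    have h := congrArg (· % Y.S) (Int.ofNat.inj (hj.symm.trans hj'))
    simpa [Nat.mod_eq_of_lt hs, Nat.mod_eq_of_lt hs'] using h
  rw [rules, List.nodup_append]
  refine ⟨?_, List.nodup_flatMap.2 ⟨fun s _ => ?_, ?_⟩, ?_⟩
  · refine List.Nodup.map_on (fun t ht t' ht' h => ?_) (List.Nodup.of_map _ hY.nodup)
    have := congrArg Move.a h
    simp only [readRule, Int.natCast_inj] at this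
    exact List.inj_on_of_nodup_map hY.nodup ht ht' this
  · split_ifs with h0
    · exact List.nodup_nil
    · cases ho : Y.O[s]? with
      | none => exact List.nodup_nil
      | some o =>
        simp only [Option.map_some, Option.getD_some, opRules, List.nodup_cons, List.mem_map,
          not_exists, not_and]
        refine ⟨fun j _ h => ?_, List.Nodup.map (fun a b h => ?_) List.nodup_range⟩
        · have := congrArg Move.b h
          simp only [yesRule, noRule, Int.natCast_inj] at this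
          have := Nat.mul_pos hS (Nat.succ_pos j)
          simp only [Nat.succ_eq_add_one] at this
          omega
        · have := congrArg Move.b h
          simp only [noRule, Int.natCast_inj, Nat.add_left_cancel_iff] at this
          have := Nat.eq_of_mul_eq_mul_left hS this
          omega
  · refine List.Nodup.pairwise_of_forall_ne List.nodup_range fun s _ s' _ hne r hr hr' => ?_
    simp only at hr hr'
    split_ifs at hr hr' with h0 h0'
    all_goals first
      | exact absurd hr List.not_mem_nil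
      | exact absurd hr' List.not_mem_nil
      | skip
    cases ho : Y.O[s]? with
    | none => simp [ho] at hr
    | some o =>
      cases ho' : Y.O[s']? with
      | none => simp [ho'] at hr'
      | some o' =>
        simp only [ho, ho', Option.map_some, Option.getD_some] at hr hr'
        exact hne (hkey h0 ho ho' hr hr')
  · intro r hr r' hr' e
    subst e
    simp only [List.mem_map] at hr
    obtain ⟨t, ht, rfl⟩ := hr
    simp only [List.mem_flatMap, List.mem_range] at hr'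
    obtain ⟨s, hs, hm⟩ := hr'
    split_ifs at hm with h0
    · simp at hm
    · rw [List.getElem?_eq_getElem hs] at hm
      simp only [Option.map_some, Option.getD_some, opRules, List.mem_cons, List.mem_map] at hm
      rcases hm with h | ⟨j, -, h⟩
      · have := congrArg Move.b h
        simp [readRule, yesRule] at this
        omega
      · have := congrArg Move.b h
        simp only [readRule, noRule, Int.natCast_inj] at this
        omega

end Sys

end Vale.Agent.P193.Machine
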