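import Vale.Agent.P193.Machine.Affine

/-!
# P193 machine: the affine machine of a system depends primitive recursively on it
-/

namespace Vale.Agent.P193.Machine.Sys

open C (Pt Move)

open Primrec

/-- A move as numbers. -/
def tuple (r : Move) : ℕ × ℕ × ℕ × ℕ × ℤ × ℤ × ℤ × ℤ :=
  (r.M, r.N, r.M', r.N', r.a, r.b, r.c, r.d)

variable {α : Type} [Primcodable α] {Y : α → Sys}

/-- The data of a system vary primitive recursively. -/
structure Prim (Y : α → Sys) : Prop where
  B : Primrec fun a => (Y a).B
  rd : Primrec fun a => (Y a).rd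
  O : Primrec fun a => (Y a).O

theorem Prim.size (h : Prim Y) : Primrec fun a => (Y a).S :=
  succ.comp (succ.comp (list_length.comp h.O))

theorem Prim.lab (h : Prim Y) : Primrec₂ fun a y => (Y a).lab y :=
  int_emod_toNat.comp snd (h.size.comp fst)

theorem Prim.reg (h : Prim Y) : Primrec₂ fun a y => (Y a).reg y :=
  int_ediv_nat.comp snd (h.size.comp fst)

theorem Prim.pt (h : Prim Y) : Primrec₂ fun a (c : ℕ × ℤ) => (Y a).pt c.1 c.2 :=
  int_add_nat.comp (int_mul_nat.comp (snd.comp snd) (h.size.comp fst)) (fst.comp snd)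

theorem primrec_opStep : Primrec₂ opStep := by
  have hdv : Primrec fun p : Op × ℤ => p.1.2.1 := fst.comp (snd.comp fst)
  have hdiv : PrimrecPred fun p : Op × ℤ => (p.1.2.1 : ℤ) ∣ p.2 :=
    (Primrec.eq.comp (nat_mod.comp (int_natAbs.comp snd) hdv) (const 0)).of_eq fun p => by
      rw [← Nat.dvd_iff_mod_eq_zero, Int.natCast_dvd]
  exact (ite hdiv
    ((fst.comp (snd.comp (snd.comp fst))).pair
      (int_mul_nat.comp (int_ediv_nat.comp snd hdv) (fst.comp fst)))
    ((snd.comp (snd.comp (snd.comp fst))).pair snd)).of_eq fun p => rfl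

theorem Prim.next (h : Prim Y) : Primrec₂ fun a z => (Y a).next z := by
  have hlab : Primrec fun p : α × Pt => (Y p.1).lab p.2.2 := h.lab.comp fst (snd.comp snd)
  have hreg : Primrec fun p : α × Pt => (Y p.1).reg p.2.2 := h.reg.comp fst (snd.comp snd)
  have hdig : Primrec fun p : α × Pt => (p.2.1 % ((Y p.1).B : ℤ)).toNat :=
    int_emod_toNat.comp (fst.comp snd) (h.B.comp fst)
  have hfind : Primrec fun p : α × Pt =>
      (Y p.1).rd.find? fun t => (p.2.1 % ((Y p.1).B : ℤ)).toNat == t.1 :=
    (list_getElem?.comp (h.rd.comp fst) (list_findIdx (h.rd.comp fst)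
      (Primrec.beq.comp (hdig.comp fst) (fst.comp snd)).to₂)).of_eq fun p =>
      List.find?_eq_getElem?_findIdx.symm
  refine (ite (Primrec.eq.comp hlab (const 0))
    (option_map hfind
      ((int_ediv_nat.comp (fst.comp (snd.comp fst)) (h.B.comp (fst.comp fst))).pair
        (h.pt.comp (fst.comp fst)
          ((fst.comp (snd.comp snd)).pair
            (int_mul_nat.comp (hreg.comp fst) (snd.comp (snd.comp snd)))))).to₂)
    (option_map (list_getElem?.comp (h.O.comp fst) hlab)
      ((fst.comp (snd.comp fst)).pair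
        (h.pt.comp (fst.comp fst) (primrec_opStep.comp snd (hreg.comp fst)))).to₂)).of_eq
    fun p => rfl

theorem primrec_tuple_mk {f₁ f₂ f₃ f₄ f₅ f₆ f₇ f₈ : α → ℕ} (h₁ : Primrec f₁) (h₂ : Primrec f₂)
    (h₃ : Primrec f₃) (h₄ : Primrec f₄) (h₅ : Primrec f₅) (h₆ : Primrec f₆) (h₇ : Primrec f₇)
    (h₈ : Primrec f₈) :
    Primrec fun a => tuple
      ⟨f₁ a, f₂ a, f₃ a, f₄ a, (f₅ a : ℤ), (f₆ a : ℤ), (f₇ a : ℤ), (f₈ a : ℤ)⟩ :=
  (h₁.pair (h₂.pair (h₃.pair (h₄.pair ((int_ofNat.comp h₅).pair ((int_ofNat.comp h₆).pair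
    ((int_ofNat.comp h₇).pair (int_ofNat.comp h₈)))))))).of_eq fun _ => rfl

theorem Prim.rules (h : Prim Y) : Primrec fun a => (Y a).rules.map tuple := by
  have hS := h.size
  -- reader rules
  have hr : Primrec fun a => (Y a).rd.map fun t => tuple ((Y a).readRule t) := by
    refine list_map h.rd ?_
    exact (primrec_tuple_mk (nat_sub.comp (h.B.comp fst) (const 1))
      (nat_sub.comp (hS.comp fst) (const 1)) (const 0)
      (nat_sub.comp (nat_mul.comp (hS.comp fst) (snd.comp (snd.comp snd))) (const 1))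
      (fst.comp snd) (const 0) (const 0) (fst.comp (snd.comp snd))).to₂
  -- the rules of one operation
  have hop : Primrec₂ fun (a : α) (q : ℕ × Op) => ((Y a).opRules q.1 q.2).map tuple := by
    have hS' : Primrec fun p : α × (ℕ × Op) => (Y p.1).S := hS.comp fst
    have hs : Primrec fun p : α × (ℕ × Op) => p.2.1 := fst.comp snd
    have hm : Primrec fun p : α × (ℕ × Op) => p.2.2.1 := fst.comp (snd.comp snd)
    have hdv : Primrec fun p : α × (ℕ × Op) => p.2.2.2.1 :=
      fst.comp (snd.comp (snd.comp snd))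
    have hy : Primrec fun p : α × (ℕ × Op) => p.2.2.2.2.1 :=
      fst.comp (snd.comp (snd.comp (snd.comp snd)))
    have hn : Primrec fun p : α × (ℕ × Op) => p.2.2.2.2.2 :=
      snd.comp (snd.comp (snd.comp (snd.comp snd)))
    have yes := primrec_tuple_mk (const 0) (nat_sub.comp (nat_mul.comp hS' hdv) (const 1))
      (const 0) (nat_sub.comp (nat_mul.comp hS' hm) (const 1)) (const 0) hs (const 0) hy
    have hj : Primrec fun q : (α × (ℕ × Op)) × ℕ => (Y q.1.1).S * (q.2 + 1) :=
      nat_mul.comp (hS'.comp fst) (succ.comp snd)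
    have no := primrec_tuple_mk (const 0)
      (nat_sub.comp (nat_mul.comp (hS'.comp fst) (hdv.comp fst)) (const 1))
      (const 0) (nat_sub.comp (nat_mul.comp (hS'.comp fst) (hdv.comp fst)) (const 1)) (const 0)
      (nat_add.comp (hs.comp fst) hj) (const 0) (nat_add.comp (hn.comp fst) hj)
    refine (list_cons.comp yes
      (list_map (list_range.comp (nat_sub.comp hdv (const 1))) no.to₂)).to₂.of_eq fun a q => ?_
    simp only [opRules, List.map_cons, List.map_map]
    rfl
  have hall : Primrec fun a => (List.range (Y a).O.length).flatMap fun s =>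
      if s = 0 then [] else
        ((Y a).O[s]?.map fun o => ((Y a).opRules s o).map tuple).getD [] := by
    refine list_flatMap (list_range.comp (list_length.comp h.O)) ?_
    exact (ite (Primrec.eq.comp snd (const 0)) (const [])
      (option_getD.comp
        (option_map (list_getElem?.comp (h.O.comp fst) snd)
          (hop.comp (fst.comp fst) ((snd.comp fst).pair snd)).to₂)
        (const []))).to₂
  refine (list_append.comp hr hall).of_eq fun a => ?_
  simp only [Sys.rules, List.map_append, List.map_map, List.map_flatMap]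
  congr 1
  refine List.flatMap_congr fun s _ => ?_
  split_ifs
  · rfl
  · cases (Y a).O[s]? <;> rfl

end Vale.Agent.P193.Machine.Sys
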