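import Vale.Agent.P193.Machine.Layout

/-!
# P193 machine: the machines of a primitive recursive family of predicates

For `acc : ℕ → List (Fin k) → Bool` primitive recursive with `acc e [] = true`, `mach` gives a
machine `C.Mach k` for every `e`, with computable rules, origin and final point and a computable
`live`.
-/

namespace Vale.Agent.P193.Machine

open C (Pt Move Step base encode)
open Function

namespace Sys

variable (Y : Sys)

/-- Finitely many moves, as a function. -/
def Reach : Pt → Pt → Prop := Relation.ReflTransGen fun a b => Y.next a = some b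

/-- One move, or none at a stuck point. -/
def adv (z : Pt) : Pt := (Y.next z).getD z

/-- Stop at a stuck point, or when the register number is zero. -/
def stop (z : Pt) : Bool := (Y.next z).isNone || decide (Y.reg z.2 = 0)

variable {Y}

theorem Reach.step {z w : Pt} (h : Y.next z = some w) : Y.Reach z w :=
  Relation.ReflTransGen.single h

theorem Reach.eq_of_stuck {z w : Pt} (hz : Y.next z = none) (h : Y.Reach z w) : w = z := by
  rcases Relation.ReflTransGen.cases_head h with h | ⟨y, hy, -⟩
  · exact h.symm
  · rw [hz] at hy; exact absurd hy (by simp)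

/-- A deterministic run to a stuck point passes through every point reached. -/
theorem Reach.total {z w f : Pt} (hf : Y.next f = none) (h1 : Y.Reach z f) (h2 : Y.Reach z w) :
    Y.Reach w f := by
  rcases Relation.ReflTransGen.total_of_right_unique
    (fun a b c (hb : Y.next a = some b) (hc : Y.next a = some c) =>
      Option.some_inj.1 (hb.symm.trans hc)) h2 h1 with h | h
  · exact h
  · rw [Reach.eq_of_stuck hf h]; exact Relation.ReflTransGen.refl

theorem exists_iterate {z w : Pt} (h : Y.Reach z w) : ∃ n, Y.adv^[n] z = w := by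
  induction h with
  | refl => exact ⟨0, rfl⟩
  | @tail b c _ hbc ih =>
    obtain ⟨n, hn⟩ := ih
    exact ⟨n + 1, by rw [iterate_succ_apply', hn]; simp [adv, hbc]⟩

theorem reach_iterate (z : Pt) : ∀ n, Y.Reach z (Y.adv^[n] z)
  | 0 => Relation.ReflTransGen.refl
  | n + 1 => by
    refine (reach_iterate z n).trans ?_
    rw [iterate_succ_apply', adv]
    cases h : Y.next (Y.adv^[n] z) with
    | none => exact Relation.ReflTransGen.refl
    | some w => exact Reach.step h

theorem next_pt {s : ℕ} (h0 : s ≠ 0) (hs : s < Y.S) (x R : ℤ) :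
    Y.next (x, Y.pt s R) = Y.O[s]?.map fun o => (x, Y.pt (opStep o R).1 (opStep o R).2) := by
  simp only [next, lab_pt hs, reg_pt hs, if_neg h0]

theorem lift_run {lo hi : ℕ} (hlo : 1 ≤ lo) (hhi : hi ≤ Y.O.length) (x : ℤ) {a b : ℕ × ℤ}
    (h : Run Y.O lo hi a b) : Y.Reach (x, Y.pt a.1 a.2) (x, Y.pt b.1 b.2) := by
  induction h with
  | refl => exact Relation.ReflTransGen.refl
  | @tail b c _ hbc ih =>
    refine ih.trans (Reach.step ?_)
    obtain ⟨h1, h2, h3⟩ := hbc
    rw [next_pt (by omega) (by simp [Sys.S]; omega)]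
    simp only [cstep] at h3
    obtain ⟨o, ho, rfl⟩ := Option.map_eq_some_iff.1 h3
    simp [ho]

/-- A register number zero stays zero. -/
theorem reg_zero_step (hY : Y.WF) {z w : Pt} (hz : Y.reg z.2 = 0) (h : Y.next z = some w) :
    Y.reg w.2 = 0 := by
  unfold next at h
  split_ifs at h with h0
  · obtain ⟨t, ht, rfl⟩ := Option.map_eq_some_iff.1 h
    simp [reg_pt (hY.read t (List.mem_of_find?_eq_some ht)).1, hz]
  · obtain ⟨o, ho, rfl⟩ := Option.map_eq_some_iff.1 h
    obtain ⟨-, -, hy, -⟩ := hY.op _ o h0 ho
    simp [opStep, hz, reg_pt hy]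

theorem reg_zero_reach (hY : Y.WF) {z w : Pt} (hz : Y.reg z.2 = 0) (h : Y.Reach z w) :
    Y.reg w.2 = 0 := by
  induction h with
  | refl => exact hz
  | tail _ hbc ih => exact reg_zero_step hY ih hbc

theorem step_reach (hY : Y.WF) {z w : Pt} :
    Relation.ReflTransGen (Step Y.rules) z w ↔ Y.Reach z w := by
  have : (Step Y.rules) = fun a b => Y.next a = some b :=
    funext fun a => funext fun b => propext (step_iff hY)
  rw [this]
  rfl

end Sys

open Sys (Reach)

variable {k : ℕ} {acc : ℕ → List (Fin k) → Bool} (ha : Primrec₂ acc) (e : ℕ)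

/-- The origin. -/
noncomputable def origin : ℤ := (sys ha e).pt 0 1

/-- The final point. -/
noncomputable def final : Pt := (0, (sys ha e).pt (fin ha e) 1)

theorem next_of_ge {s : ℕ} (h1 : fin ha e ≤ s) (h2 : s < (sys ha e).S) (x R : ℤ) :
    (sys ha e).next (x, (sys ha e).pt s R) = none := by
  have h0 : s ≠ 0 := by
    have : 0 < fin ha e := by simp [fin]
    omega
  rw [Sys.next_pt h0 h2, show (sys ha e).O = ops ha e from rfl, List.getElem?_eq_none (le_of_eq_of_le (length_ops ha e) h1)]
  rfl

theorem final_next : (sys ha e).next (final ha e) = none :=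
  next_of_ge ha e le_rfl (by rw [S_sys]; omega) _ _

/-- A move of the reader. -/
theorem next_read {t : Read} (ht : t ∈ reads k) {x : ℤ}
    (hx : (x % (base k : ℤ)).toNat = t.1) (R : ℤ) :
    (sys ha e).next (x, (sys ha e).pt 0 R) =
      some (x / (base k : ℤ), (sys ha e).pt t.2.1 (R * (t.2.2 : ℤ))) := by
  have hY := wf_sys ha e
  have hm : ((sys ha e).readRule t).Mem (x, (sys ha e).pt 0 R) :=
    (Sys.mem_readRule hY ht _).2 ⟨Sys.lab_pt (Sys.S_pos _) R, hx⟩
  have := (Sys.step_iff hY).1 ⟨_, Sys.mem_rules.2 (.inl ⟨t, ht, rfl⟩), hm, rfl⟩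
  rw [this, Sys.app_readRule hY ht hm, Sys.reg_pt (Sys.S_pos _)]
  rfl

theorem fin_le_length : fin ha e ≤ (sys ha e).O.length := (length_ops ha e).ge

theorem lift_ops {lo hi : ℕ} (hlo : 1 ≤ lo) (hhi : hi ≤ fin ha e) (x : ℤ) {a b : ℕ × ℤ}
    (h : Run (ops ha e) lo hi a b) :
    (sys ha e).Reach (x, (sys ha e).pt a.1 a.2) (x, (sys ha e).pt b.1 b.2) :=
  Sys.lift_run (Y := sys ha e) hlo (hhi.trans (length_ops ha e).ge) x h

/-- The digit register after a digit. -/
theorem val_update_digit {K : ℕ} {σ : ℕ → ℕ} (hK : rD < K) (hD : σ rD = 0) (a : ℕ) :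
    val K (update σ rD a) = val K σ * pr rD ^ a := by
  rw [← val_single hK a, ← val_add]
  refine val_congr fun s _ => ?_
  by_cases h : s = rD
  · subst h; simp at hD ⊢; simp [hD]
  · simp at h; simp [h]

/-- From a labelled point the machine reaches a stopping point. -/
theorem halts (z : Pt) : ∃ w, (sys ha e).Reach z w ∧ (sys ha e).stop w = true := by
  obtain ⟨hP, hR, hC, hN⟩ := regs_le ha
  have hmain : main k + 0 < test ha e + 1 := by simp [test]
  have htest : test ha e + 1 ≤ fin ha e := Nat.le_add_right _ _
  have hS : (sys ha e).S = fin ha e + 2 := S_sys ha e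
  -- from the end on
  have hfin : ∀ s, fin ha e ≤ s → s < (sys ha e).S → ∀ x R, ∃ w, (sys ha e).Reach (x, (sys ha e).pt s R) w ∧
      (sys ha e).stop w = true := fun s h1 h2 x R =>
    ⟨_, Relation.ReflTransGen.refl, by simp [Sys.stop, next_of_ge ha e h1 h2]⟩
  have hclean : ∀ s, test ha e + 1 ≤ s → s < fin ha e → ∀ x J σ, Clean (nRegs ha) J →
      ∃ w, (sys ha e).Reach (x, (sys ha e).pt s (J * val (nRegs ha) σ)) w ∧ (sys ha e).stop w = true := by
    intro s h1 h2 x J σ hJ
    obtain ⟨σ', r⟩ := Cmd.Safe.run hJ (safe_clearBelow _) (placed_clean ha e) hC h1 h2 σ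
    obtain ⟨w, hw, hs⟩ := hfin _ le_rfl (by omega) x (J * val (nRegs ha) σ')
    exact ⟨w, (lift_ops ha e (by omega) (le_of_eq rfl) x r).trans
      hw, hs⟩
  have htestStep : ∀ x J σ, Clean (nRegs ha) J →
      ∃ w, (sys ha e).Reach (x, (sys ha e).pt (test ha e) (J * val (nRegs ha) σ)) w ∧ (sys ha e).stop w = true := by
    intro x J σ hJ
    have hn := Sys.next_pt (Y := sys ha e) (s := test ha e) (by simp [test, main])
      (by rw [hS]; omega) x
      (J * val (nRegs ha) σ)
    rw [show (sys ha e).O = ops ha e from rfl, ops_test, Option.map_some] at hn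
    by_cases h : σ rO = 0
    · rw [opStep_no (r := rO) (by simp; omega) hJ h] at hn
      obtain ⟨w, hw, hs⟩ := hfin (dead ha e) (by simp [dead]) (by simp [dead]; omega) x
        (J * val (nRegs ha) σ)
      exact ⟨w, (Sys.Reach.step hn).trans hw, hs⟩
    · rw [opStep_yes (by simp; omega) (by simp) (by simpa using h)] at hn
      have : 0 < (cleanCmd ha).len := Cmd.len_pos _
      obtain ⟨w, hw, hs⟩ := hclean (test ha e + 1) le_rfl (by simp [fin]; omega) x J
        (after (some rO) [] σ) hJ
      exact ⟨w, (Sys.Reach.step hn).trans hw, hs⟩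
  have hround : ∀ s, main k ≤ s → s < test ha e → ∀ x J σ, Clean (nRegs ha) J →
      ∃ w, (sys ha e).Reach (x, (sys ha e).pt s (J * val (nRegs ha) σ)) w ∧ (sys ha e).stop w = true := by
    intro s h1 h2 x J σ hJ
    obtain ⟨σ', r⟩ := Cmd.Safe.run hJ (safe_round ha e) (placed_round ha e) (hR e) h1 h2 σ
    obtain ⟨w, hw, hs⟩ := htestStep x J σ' hJ
    exact ⟨w, (lift_ops ha e (by simp [main]) (by simp [test] at htest ⊢; omega) x r).trans hw, hs⟩
  have hread : ∀ n : ℕ, ∀ x : ℤ, x.natAbs ≤ n → ∀ J σ, Clean (nRegs ha) J →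
      ∃ w, (sys ha e).Reach (x, (sys ha e).pt 0 (J * val (nRegs ha) σ)) w ∧ (sys ha e).stop w = true := by
    intro n
    induction n using Nat.strong_induction_on with
    | _ n ih =>
      intro x hx J σ hJ
      by_cases h : (sys ha e).next (x, (sys ha e).pt 0 (J * val (nRegs ha) σ)) = none
      · exact ⟨_, Relation.ReflTransGen.refl, by simp [Sys.stop, h]⟩
      obtain ⟨w₁, hw₁⟩ := Option.ne_none_iff_exists'.1 h
      have hw := hw₁
      simp only [Sys.next, Sys.lab_pt (Sys.S_pos _), if_true] at hw
      obtain ⟨t, ht, -⟩ := Option.map_eq_some_iff.1 hw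
      have hd := List.find?_some ht
      have hmem : t ∈ reads k := List.mem_of_find?_eq_some ht
      simp only [beq_iff_eq] at hd
      change (x % (base k : ℤ)).toNat = t.1 at hd
      have hn := next_read ha e hmem hd (J * val (nRegs ha) σ)
      simp only [reads, List.mem_append, List.mem_map, List.mem_range, List.mem_singleton] at hmem
      rcases hmem with ⟨i, hi, rfl⟩ | rfl
      · -- a digit: the first coordinate shrinks
        dsimp only at hn hd
        let τ : ℕ → ℕ := fun s => σ s + if s = rD then i + 1 else 0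
        have hτ : J * val (nRegs ha) σ * ((pr rD ^ (i + 1) : ℕ) : ℤ) =
            J * val (nRegs ha) τ := by
          simp only [τ]
          rw [val_add, val_single (by simp; omega)]
          push_cast
          ring
        rw [hτ] at hn
        obtain ⟨σ', r⟩ := Cmd.Safe.run hJ safe_pop (placed_pop ha e) hP le_rfl
          (by have := (popCmd k).len_pos; omega) τ
        have hlt : (x / (base k : ℤ)).natAbs < n := by
          have hB : (8 : ℤ) ≤ base k := by simp [base]
          have hik : (i : ℤ) + 1 ≤ (base k : ℤ) - 2 := by simp [base]; omega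
          have e1 := Int.emod_nonneg x (show (base k : ℤ) ≠ 0 by omega)
          have e2 := Int.ediv_mul_add_emod x (base k : ℤ)
          have e3 : x % (base k : ℤ) = (i : ℤ) + 1 := by omega
          rcases lt_trichotomy (x / (base k : ℤ)) 0 with hq | hq | hq
          · have : x / (base k : ℤ) * (base k : ℤ) ≤ x / (base k : ℤ) + ((base k : ℤ) - 1) * (-1) :=
              by nlinarith
            omega
          · rw [hq] at e2 ⊢
            omega
          · have : x / (base k : ℤ) + 1 ≤ x / (base k : ℤ) * (base k : ℤ) := by nlinarith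
            omega
        obtain ⟨w, hw', hs⟩ := ih _ hlt _ le_rfl J σ' hJ
        exact ⟨w, ((Sys.Reach.step hn).trans (lift_ops ha e le_rfl
          (by simp [main, test] at htest ⊢; omega) _ r)).trans hw', hs⟩
      · -- the end mark
        dsimp only at hn
        rw [Nat.cast_one, mul_one] at hn
        obtain ⟨w, hw', hs⟩ := hround (main k) le_rfl
          (by have := (roundCmd ha e).len_pos; simp [test]; omega) (x / (base k : ℤ)) J σ hJ
        exact ⟨w, (Sys.Reach.step hn).trans hw', hs⟩
  obtain ⟨x, y⟩ := z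
  by_cases hz : (sys ha e).reg y = 0
  · exact ⟨_, Relation.ReflTransGen.refl, by simp [Sys.stop, hz]⟩
  obtain ⟨J, hJ, hyR⟩ := exists_clean (K := nRegs ha) hz
  rw [← (sys ha e).pt_lab_reg y, hyR]
  have hs := (sys ha e).lab_lt y
  generalize (sys ha e).lab y = s at hs
  generalize envOf (nRegs ha) ((sys ha e).reg y) = σ
  by_cases h0 : s = 0
  · subst h0; exact hread _ x le_rfl J σ hJ
  by_cases h1 : s < main k
  · obtain ⟨σ', r⟩ := Cmd.Safe.run hJ safe_pop (placed_pop ha e) hP (s := s) (by omega)
      (by simp [main] at h1; omega) σ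
    obtain ⟨w, hw, hst⟩ := hread _ x le_rfl J σ' hJ
    exact ⟨w, (lift_ops ha e le_rfl (by simp [main, test] at htest ⊢; omega) x r).trans hw, hst⟩
  by_cases h2 : s < test ha e
  · exact hround s (by omega) h2 x J σ hJ
  by_cases h3 : s = test ha e
  · subst h3; exact htestStep x J σ hJ
  by_cases h4 : s < fin ha e
  · exact hclean s (by omega) h4 x J σ hJ
  · exact hfin s (by omega) hs x _

theorem exists_stop (z : Pt) : ∃ n, (sys ha e).stop ((sys ha e).adv^[n] z) = true := by
  obtain ⟨w, hw, hs⟩ := halts ha e z
  obtain ⟨n, hn⟩ := Sys.exists_iterate hw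
  exact ⟨n, hn ▸ hs⟩

/-- Does the point reach the final point? Run to the first stop. -/
noncomputable def live (z : Pt) : Bool :=
  decide ((sys ha e).adv^[Nat.find (exists_stop ha e z)] z = final ha e)

theorem live_iff (z : Pt) :
    live ha e z = true ↔ Relation.ReflTransGen (Step (sys ha e).rules) z (final ha e) := by
  rw [live, decide_eq_true_iff, Sys.step_reach (wf_sys ha e)]
  show _ ↔ (sys ha e).Reach z (final ha e)
  have hr := Sys.reach_iterate (Y := sys ha e) z (Nat.find (exists_stop ha e z))
  refine ⟨fun h => h ▸ hr, fun h => ?_⟩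
  have h' := Sys.Reach.total (final_next ha e) h hr
  have hs := Nat.find_spec (exists_stop ha e z)
  generalize Nat.find (exists_stop ha e z) = n at hs h' ⊢
  simp only [Sys.stop, Bool.or_eq_true, Option.isNone_iff_eq_none, decide_eq_true_iff] at hs
  rcases hs with hs | hs
  · exact (Sys.Reach.eq_of_stuck (Y := sys ha e) (w := final ha e) hs h').symm
  · have := Sys.reg_zero_reach (wf_sys ha e) hs h'
    rw [show (final ha e).2 = (sys ha e).pt (fin ha e) 1 from rfl,
      Sys.reg_pt (by rw [S_sys]; omega)] at this
    exact absurd this one_ne_zero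

theorem encode_emod (i : Fin k) (u : List (Fin k)) :
    (encode (i :: u) % (base k : ℤ)).toNat = (i : ℕ) + 1 ∧
      encode (i :: u) / (base k : ℤ) = encode u := by
  have hlt : (i : ℤ) + 1 < base k := by simp [base]; omega
  have h : encode (i :: u) = ((i : ℤ) + 1) + (base k : ℤ) * encode u := by
    simp only [encode]; ring
  constructor
  · rw [h, Int.add_mul_emod_self_left, Int.emod_eq_of_lt (by omega) hlt]
    omega
  · rw [h, Int.add_mul_ediv_left _ _ (by omega), Int.ediv_eq_zero_of_lt (by omega) hlt,
      zero_add]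

/-- Reading a word. -/
theorem read_word : ∀ (v p : List (Fin k)) (σ : ℕ → ℕ), σ rC = Encodable.encode p → σ rD = 0 →
    ∃ σ', σ' rC = Encodable.encode (v.reverse ++ p) ∧
      (sys ha e).Reach (encode v, (sys ha e).pt 0 (1 * val (nRegs ha) σ))
        (0, (sys ha e).pt (main k) (1 * val (nRegs ha) σ'))
  | [], p, σ, hC, hD => by
    refine ⟨σ, by simpa using hC, Sys.Reach.step ?_⟩
    have hB : (0 : ℤ) < base k := by simp [base]; omega
    rw [next_read ha e (t := (base k - 1, main k, 1)) (by simp [reads]) (by
      simp only [encode]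
      rw [Int.emod_eq_of_lt (by omega) (by omega)]
      omega)]
    simp only [encode, Nat.cast_one, mul_one]
    rw [Int.ediv_eq_zero_of_lt (by omega) (by omega)]
  | i :: v, p, σ, hC, hD => by
    obtain ⟨hP, hR, hCl, hN⟩ := regs_le ha
    obtain ⟨hm, hq⟩ := encode_emod i v
    have hn := next_read ha e (t := ((i : ℕ) + 1, 1, pr rD ^ ((i : ℕ) + 1)))
      (by simp [reads]) hm ((1 : ℤ) * val (nRegs ha) σ)
    have hv := val_update_digit (K := nRegs ha) (by simp; omega) hD ((i : ℕ) + 1)
    rw [mul_assoc, ← Nat.cast_mul, ← hv, hq] at hn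
    set σ₁ := update σ rD ((i : ℕ) + 1) with hσ₁
    -- push, copy back, clear the digit
    obtain ⟨σ₂, e₂, v₂, k₂⟩ := (spec_pushCmd (k := k)).1 σ₁
    obtain ⟨σ₃, e₃, c₃, k₃⟩ := exec_copy (d := rC) (s := rX) (t := 5) (by simp) (by simp)
      (by simp) σ₂
    have hex : Exec (popCmd k) σ₁ (update σ₃ rD 0) := .seq e₂ (.seq e₃ (exec_clear _ _))
    have hcode : (update σ₃ rD 0) rC = Encodable.encode (i :: p) := by
      rw [update_of_ne (by simp), c₃, v₂]
      simp only [rC] at hC
      simp [push, List.Vector.ofFn, σ₁, hC, listOf_encode,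
        show Encodable.decode (α := Fin k) (i : ℕ) = some i from Encodable.encodek i]
    obtain ⟨σ', hc', hr'⟩ := read_word v (i :: p) (update σ₃ rD 0) hcode (update_self ..)
    refine ⟨σ', by simpa using hc', ((Sys.Reach.step hn).trans ?_).trans hr'⟩
    exact lift_ops ha e le_rfl (by simp [main, test, fin]; omega) _
      (hex.run (clean_one _) (placed_pop ha e) hP)

theorem accepts (l : List (Fin k)) :
    live ha e (encode l, origin ha e) = acc e l := by
  obtain ⟨hP, hR, hCl, hN⟩ := regs_le ha
  obtain ⟨σ, hC, hr⟩ := read_word ha e l [] (fun _ => 0) (by simp) rfl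
  rw [val_zero, Nat.cast_one, mul_one] at hr
  rw [List.append_nil] at hC
  obtain ⟨σ₂, e₂, v₂, k₂⟩ := (spec_testCmd ha).1 (update (update σ rE 0) rE (0 + e))
  have hout : σ₂ rO = bif acc e l then 1 else 0 := by
    rw [v₂]
    simp only [rC] at hC
    simp [testFn, List.Vector.ofFn, hC, listOf_encode]
  have hex : Exec (roundCmd ha e) σ σ₂ := .seq (exec_clear _ _)
    (.seq (by simpa using exec_incs rE e (update σ rE 0)) e₂)
  have h1 : (sys ha e).Reach (encode l, origin ha e) (0, (sys ha e).pt (test ha e) (1 * val (nRegs ha) σ₂)) :=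
    Relation.ReflTransGen.trans (b := (0, (sys ha e).pt (main k) (1 * val (nRegs ha) σ))) hr
      (lift_ops ha e (by simp [main]) (by simp [test, fin]; omega) 0
        (hex.run (clean_one _) (placed_round ha e) (hR e)))
  have hS : (sys ha e).S = fin ha e + 2 := S_sys ha e
  have htest : test ha e < fin ha e := by
    have := (cleanCmd ha).len_pos; simp [fin]; omega
  have hn := Sys.next_pt (Y := sys ha e) (s := test ha e) (by simp [test, main]) (by omega) 0
    (1 * val (nRegs ha) σ₂)
  rw [show (sys ha e).O = ops ha e from rfl, ops_test, Option.map_some] at hn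
  cases hacc : acc e l with
  | true =>
    rw [hacc, cond_true] at hout
    rw [opStep_yes (K := nRegs ha) (by simp; omega) (by simp) (by simp only [rO] at hout; simp [hout])] at hn
    obtain ⟨σ₃, e₃, z₃⟩ := exec_clearBelow (nRegs ha) (after (some rO) [] σ₂)
    have hv : val (nRegs ha) σ₃ = 1 := (val_congr z₃).trans (val_zero (nRegs ha))
    have h3 := lift_ops ha e (Nat.le_add_left 1 (test ha e)) (by simp [fin, cleanCmd]) 0
      (e₃.run (clean_one (nRegs ha)) (placed_clean ha e) hCl)
    rw [hv, Nat.cast_one, mul_one] at h3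
    exact (live_iff ha e _).2 ((Sys.step_reach (wf_sys ha e)).2
      (h1.trans ((Sys.Reach.step hn).trans h3)))
  | false =>
    rw [hacc, cond_false] at hout
    rw [opStep_no (K := nRegs ha) (r := rO) (by simp; omega) (clean_one (nRegs ha)) hout] at hn
    cases hl : live ha e (encode l, origin ha e) with
    | false => rfl
    | true =>
      exfalso
      have hf := (Sys.step_reach (wf_sys ha e)).1 ((live_iff ha e _).1 hl)
      have hd := next_of_ge ha e (s := dead ha e) (by simp [dead]) (by simp [dead]; omega)
        0 ((1 : ℤ) * val (nRegs ha) σ₂)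
      have h2 := Sys.Reach.total (final_next ha e) hf (h1.trans (Sys.Reach.step hn))
      have h4 := congrArg (fun z : Pt => (sys ha e).lab z.2) (Sys.Reach.eq_of_stuck hd h2)
      simp only [final, Sys.lab_pt (show fin ha e < (sys ha e).S by omega),
        Sys.lab_pt (show dead ha e < (sys ha e).S by simp [dead]; omega)] at h4
      simp [dead] at h4

variable (hnil : ∀ e, acc e [] = true)

/-- The machine of `e`. -/
noncomputable def mach : C.Mach k where
  rules := (sys ha e).rules
  origin := origin ha e
  final := final ha e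
  acc := acc e
  acc_nil := hnil e
  nodup := Sys.nodup_rules (wf_sys ha e)
  deterministic := Sys.deterministic (wf_sys ha e)
  final_stuck := fun y h => by
    have := (Sys.step_iff (wf_sys ha e)).1 h
    rw [final_next] at this
    exact absurd this (by simp)
  live := live ha e
  live_iff := live_iff ha e
  accepts := accepts ha e

theorem mach_acc (e : ℕ) (l : List (Fin k)) : (mach ha e hnil).acc l = acc e l := rfl

theorem rules_computable : Computable fun e => (mach ha e hnil).rules.map fun r =>
    (r.M, r.N, r.M', r.N', r.a, r.b, r.c, r.d) :=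
  ((prim_sys ha).rules.of_eq fun _ => rfl).to_comp

theorem origin_computable : Computable fun e => (mach ha e hnil).origin :=
  (((prim_sys ha).pt.comp Primrec.id (Primrec.const (0, 1))).of_eq fun _ => rfl).to_comp

theorem final_computable : Computable fun e => (mach ha e hnil).final :=
  (((Primrec.const 0).pair ((prim_sys ha).pt.comp Primrec.id
    ((primrec_fin ha).pair (Primrec.const 1)))).of_eq fun _ => rfl).to_comp

theorem live_computable : Computable₂ fun e x => (mach ha e hnil).live x := by
  have hnext : Primrec₂ fun e z => (sys ha e).next z := (prim_sys ha).next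
  have hadv : Primrec₂ fun e z => (sys ha e).adv z :=
    Primrec.option_getD.comp hnext Primrec.snd
  have hstop : Primrec₂ fun e z => (sys ha e).stop z :=
    Primrec.or.comp ((Primrec.option_isSome.comp hnext).of_eq (fun _ => rfl) |> fun h =>
      (Primrec.not.comp h).of_eq fun p => by simp [Option.not_isSome])
      (Primrec.eq.comp ((prim_sys ha).reg.comp Primrec.fst (Primrec.snd.comp Primrec.snd))
        (Primrec.const 0)).decide
  have hiter : Primrec₂ fun (p : ℕ × Pt) n => (sys ha p.1).adv^[n] p.2 :=
    (Primrec.nat_iterate Primrec.snd (Primrec.snd.comp Primrec.fst)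
      (hadv.comp (Primrec.fst.comp (Primrec.fst.comp Primrec.fst)) Primrec.snd).to₂).to₂
  have hN : Computable fun p : ℕ × Pt => Nat.find (exists_stop ha p.1 p.2) := by
    refine Partrec.of_eq_tot (Partrec.rfind
      (p := fun (p : ℕ × Pt) n => Part.some ((sys ha p.1).stop ((sys ha p.1).adv^[n] p.2))) ?_) ?_
    · exact (hstop.comp (Primrec.fst.comp Primrec.fst) hiter).to_comp.partrec.to₂
    · intro p
      refine Nat.mem_rfind.2 ?_
      refine ⟨by simpa using (Nat.find_spec (exists_stop ha p.1 p.2)), fun {m} hm => ?_⟩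
      have := Nat.find_min (exists_stop ha p.1 p.2) hm
      simp only [Part.mem_some_iff]
      exact (Bool.eq_false_iff.2 this).symm
  have hfin : Primrec fun p : ℕ × Pt => final ha p.1 :=
    ((Primrec.const 0).pair ((prim_sys ha).pt.comp Primrec.fst
      (((primrec_fin ha).comp Primrec.fst).pair (Primrec.const 1)))).of_eq fun _ => rfl
  exact ((Primrec.eq.decide.to_comp.comp (hiter.to_comp.comp Computable.id hN)
    hfin.to_comp).of_eq fun p => rfl)

end Vale.Agent.P193.Machine
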