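import Vale.Agent.P193.Machine.AffineComp

/-!
# P193 machine: the layout of the machine of a code `e`

Registers: `rC` the code of the word read (last letter first), `rD` the digit just read, `rE` the
code `e`, `rO` the result of the test, `rX` scratch.

Labels: `0` reads a digit, then a block updates `rC`. After the end mark the block at `main`
computes `acc e word`; the label `test` either clears all registers and stops at `fin`, or stops
at `dead`.
-/

namespace Vale.Agent.P193.Machine

open C (base)

variable {k : ℕ}

/-- The list coded by a number. -/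
def listOf (c : ℕ) : List (Fin k) := (Encodable.decode₂ (List (Fin k)) c).getD []

theorem listOf_encode (l : List (Fin k)) : listOf (Encodable.encode l) = l := by
  simp [listOf, Encodable.decode₂_encode]

/-- The new code after a digit. -/
def push (k : ℕ) (v : List.Vector ℕ 2) : ℕ :=
  ((Encodable.decode (α := Fin k) (v.head - 1)).map fun i =>
    Encodable.encode (i :: listOf (k := k) v.tail.head)).getD v.tail.head

/-- The test, as a function on vectors `(e, code)`. -/
def testFn (acc : ℕ → List (Fin k) → Bool) (v : List.Vector ℕ 2) : ℕ :=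
  bif acc v.head (listOf v.tail.head).reverse then 1 else 0

theorem primrec_listOf : Primrec (listOf (k := k)) :=
  Primrec.option_getD.comp Primrec.decode₂ (Primrec.const [])

theorem primrec'_push : Nat.Primrec' (push k) := by
  refine Nat.Primrec'.of_prim ?_
  have h1 : Primrec fun v : List.Vector ℕ 2 => v.tail.head :=
    Primrec.vector_head.comp Primrec.vector_tail
  exact Primrec.option_getD.comp
    (Primrec.option_map
      (Primrec.decode.comp (Primrec.nat_sub.comp Primrec.vector_head (Primrec.const 1)))
      (Primrec.encode.comp (Primrec.list_cons.comp Primrec.snd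
        ((primrec_listOf.comp h1).comp Primrec.fst))).to₂) h1

theorem primrec'_testFn {acc : ℕ → List (Fin k) → Bool} (ha : Primrec₂ acc) :
    Nat.Primrec' (testFn acc) := by
  refine Nat.Primrec'.of_prim ?_
  exact Primrec.cond (ha.comp Primrec.vector_head (Primrec.list_reverse.comp
    (primrec_listOf.comp (Primrec.vector_head.comp Primrec.vector_tail))))
    (Primrec.const 1) (Primrec.const 0)

/-- The code register. -/
def rC : ℕ := 0
/-- The digit register. -/
def rD : ℕ := 1
/-- The register of `e`. -/
def rE : ℕ := 2
/-- The result register. -/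
def rO : ℕ := 3
/-- A scratch register. -/
def rX : ℕ := 4

attribute [simp] rC rD rE rO rX

variable (k) in
theorem exists_pushCmd :
    ∃ p, ComputesAt p (push k) (Fin.cons rD fun _ : Fin 1 => rC) rX 5 :=
  computes_of_primrec' primrec'_push _ _ _ (Fin.forall_fin_two.2 ⟨by simp, by simp⟩)
    (by simp) (Fin.forall_fin_two.2 ⟨by simp, by simp⟩)

variable {acc : ℕ → List (Fin k) → Bool} (ha : Primrec₂ acc)

include ha in
theorem exists_testCmd :
    ∃ p, ComputesAt p (testFn acc) (Fin.cons rE fun _ : Fin 1 => rC) rO 5 :=
  computes_of_primrec' (primrec'_testFn ha) _ _ _ (Fin.forall_fin_two.2 ⟨by simp, by simp⟩)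
    (by simp) (Fin.forall_fin_two.2 ⟨by simp, by simp⟩)

/-- The program for `push`. -/
noncomputable def pushCmd (k : ℕ) : Cmd := (exists_pushCmd k).choose

/-- The program for the test. -/
noncomputable def testCmd : Cmd := (exists_testCmd ha).choose

/-- The block after a digit. -/
noncomputable def popCmd (k : ℕ) : Cmd := .seq (pushCmd k) (.seq (copy rC rX 5) (clear rD))

/-- The block after the end mark. -/
noncomputable def roundCmd (e : ℕ) : Cmd :=
  .seq (clear rE) (.seq (incs rE e) (testCmd ha))

/-- The number of registers. -/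
noncomputable def nRegs : ℕ := max (max (pushCmd k).regs (testCmd ha).regs) 6

/-- The final clearing. -/
noncomputable def cleanCmd : Cmd := clearBelow (nRegs ha)

/-- The label of the block after the end mark. -/
noncomputable def main (k : ℕ) : ℕ := (popCmd k).len + 1

/-- The label of the test. -/
noncomputable def test (e : ℕ) : ℕ := main k + (roundCmd ha e).len

/-- The accepting label. -/
noncomputable def fin (e : ℕ) : ℕ := test ha e + 1 + (cleanCmd ha).len

/-- The rejecting label. -/
noncomputable def dead (e : ℕ) : ℕ := fin ha e + 1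

/-- The operations; the first one is not used. -/
noncomputable def ops (e : ℕ) : List Op :=
  [mkOp none [] 0 0] ++ (popCmd k).flat 1 0 ++
    (roundCmd ha e).flat (main k) (test ha e) ++
    [mkOp (some rO) [] (test ha e + 1) (dead ha e)] ++
    (cleanCmd ha).flat (test ha e + 1) (fin ha e)

/-- The reader moves. -/
noncomputable def reads (k : ℕ) : List Read :=
  ((List.range k).map fun i => (i + 1, 1, pr rD ^ (i + 1))) ++ [(base k - 1, main k, 1)]

/-- The system of `e`. -/
noncomputable def sys (e : ℕ) : Sys := ⟨base k, reads k, ops ha e⟩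

theorem length_ops (e : ℕ) : (ops ha e).length = fin ha e := by
  simp [ops, Cmd.length_flat, main, test, fin]
  omega

theorem S_sys (e : ℕ) : (sys ha e).S = fin ha e + 2 := by simp [Sys.S, sys, length_ops]

theorem placed_at {O : List Op} {p : Cmd} {off e : ℕ} (pre suf : List Op)
    (h : O = pre ++ (p.flat off e ++ suf)) (hl : pre.length = off) : p.Placed O off e := by
  subst hl
  rw [h]
  exact p.placed_flat pre suf e

theorem placed_pop (e : ℕ) : (popCmd k).Placed (ops ha e) 1 0 :=
  placed_at [mkOp none [] 0 0] ((roundCmd ha e).flat (main k) (test ha e) ++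
    [mkOp (some rO) [] (test ha e + 1) (dead ha e)] ++
    (cleanCmd ha).flat (test ha e + 1) (fin ha e)) (by simp [ops]) rfl

theorem placed_round (e : ℕ) : (roundCmd ha e).Placed (ops ha e) (main k) (test ha e) :=
  placed_at ([mkOp none [] 0 0] ++ (popCmd k).flat 1 0)
    ([mkOp (some rO) [] (test ha e + 1) (dead ha e)] ++
      (cleanCmd ha).flat (test ha e + 1) (fin ha e))
    (by simp [ops]) (by simp [Cmd.length_flat, main])

theorem placed_clean (e : ℕ) : (cleanCmd ha).Placed (ops ha e) (test ha e + 1) (fin ha e) :=
  placed_at ([mkOp none [] 0 0] ++ (popCmd k).flat 1 0 ++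
    (roundCmd ha e).flat (main k) (test ha e) ++
    [mkOp (some rO) [] (test ha e + 1) (dead ha e)]) []
    (by simp [ops]) (by simp [Cmd.length_flat, main, test]; omega)

theorem ops_test (e : ℕ) :
    (ops ha e)[test ha e]? = some (mkOp (some rO) [] (test ha e + 1) (dead ha e)) := by
  have hl : ([mkOp none [] 0 0] ++ (popCmd k).flat 1 0 ++
      (roundCmd ha e).flat (main k) (test ha e)).length = test ha e := by
    simp [Cmd.length_flat, main, test]
    omega
  unfold ops
  rw [List.append_assoc, List.getElem?_append_right (by omega), hl, Nat.sub_self]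
  rfl

theorem regs_le : (popCmd k).regs ≤ nRegs ha ∧ (∀ e, (roundCmd ha e).regs ≤ nRegs ha) ∧
    (cleanCmd ha).regs ≤ nRegs ha ∧ 6 ≤ nRegs ha := by
  have h : ∀ e, (incs rE e).regs ≤ 3 := fun e => by
    induction e with
    | zero => simp [incs, Cmd.regs]
    | succ n ih => simp [incs, Cmd.regs] at *; omega
  refine ⟨?_, fun e => ?_, regs_clearBelow _, le_max_right _ _⟩
  · simp [popCmd, nRegs, copy, clear, Cmd.regs]
    omega
  · have := h e
    simp [roundCmd, nRegs, clear, Cmd.regs] at this ⊢
    omega

theorem spec_pushCmd :
    ComputesAt (pushCmd k) (push k) (Fin.cons rD fun _ : Fin 1 => rC) rX 5 :=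
  (exists_pushCmd k).choose_spec

theorem spec_testCmd :
    ComputesAt (testCmd ha) (testFn acc) (Fin.cons rE fun _ : Fin 1 => rC) rO 5 :=
  (exists_testCmd ha).choose_spec

theorem safe_pop : (popCmd k).Safe :=
  ⟨spec_pushCmd.2.1, safe_copy (by simp) (by simp), safe_clear _⟩

theorem safe_round (e : ℕ) : (roundCmd ha e).Safe :=
  ⟨safe_clear _, safe_incs _ _, (spec_testCmd ha).2.1⟩

/-- The shape of every operation in use. -/
theorem ops_shape (e : ℕ) {s : ℕ} {o : Op} (hs : s ≠ 0) (ho : (ops ha e)[s]? = some o) :
    ∃ d a yes no, o = mkOp d a yes no ∧ (∀ r, d = some r → r < nRegs ha) ∧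
      (∀ r ∈ a, r < nRegs ha) ∧ yes ≤ dead ha e ∧ no ≤ dead ha e := by
  have hlt : s < fin ha e := length_ops ha e ▸ (List.getElem?_eq_some_iff.1 ho).1
  obtain ⟨hP, hR, hC, hN⟩ := regs_le ha
  have hdead : dead ha e = fin ha e + 1 := rfl
  have block : ∀ {p : Cmd} {off x : ℕ}, p.Placed (ops ha e) off x → p.regs ≤ nRegs ha →
      off + p.len ≤ fin ha e → x ≤ fin ha e → off ≤ s → s < off + p.len →
      ∃ d a yes no, o = mkOp d a yes no ∧ (∀ r, d = some r → r < nRegs ha) ∧
        (∀ r ∈ a, r < nRegs ha) ∧ yes ≤ dead ha e ∧ no ≤ dead ha e := by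
    intro p off x hp hr hb hx h1 h2
    obtain ⟨d, a, y, n, ho', hd, har, hy, hn⟩ := hp.op hr h1 h2
    exact ⟨d, a, y, n, Option.some_inj.1 (ho.symm.trans ho'), hd, fun r h => (har r h).1,
      by omega, by omega⟩
  have hpop : 1 + (popCmd k).len = main k := Nat.add_comm _ _
  have hround : main k + (roundCmd ha e).len = test ha e := rfl
  have hclean : test ha e + 1 + (cleanCmd ha).len = fin ha e := rfl
  by_cases h1 : s < main k
  · exact block (placed_pop ha e) hP (by omega) (Nat.zero_le _) (by omega) (by omega)
  by_cases h2 : s < test ha e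
  · exact block (placed_round ha e) (hR e) (by omega) (by omega) (by omega) (by omega)
  by_cases h3 : s = test ha e
  · subst h3
    obtain rfl := Option.some_inj.1 ((ops_test ha e).symm.trans ho)
    exact ⟨_, _, _, _, rfl, by simp; omega, by simp, by omega, by omega⟩
  · exact block (placed_clean ha e) hC (by omega) le_rfl (by omega) (by omega)

theorem wf_sys (e : ℕ) : (sys ha e).WF where
  B_lt := by simp [sys, base]
  digit t ht := by
    simp only [sys, reads, List.mem_append, List.mem_map, List.mem_range, List.mem_singleton] at ht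
    rcases ht with ⟨i, hi, rfl⟩ | rfl <;> simp [sys, base]
    omega
  nodup := by
    simp only [sys, reads, List.map_append, List.map_map, List.map_cons, List.map_nil,
      List.nodup_append]
    refine ⟨List.Nodup.map (fun a b h => by simpa using h) List.nodup_range, by simp,
      fun a hx b hy => ?_⟩
    simp at hx hy
    obtain ⟨i, hi, rfl⟩ := hx
    simp [base] at hy
    omega
  read t ht := by
    rw [S_sys]
    have : main k ≤ fin ha e := by simp [fin, test]; omega
    simp only [sys, reads, List.mem_append, List.mem_map, List.mem_range, List.mem_singleton] at ht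
    rcases ht with ⟨i, hi, rfl⟩ | rfl
    · exact ⟨by simp, pow_pos (pr_pos _) _⟩
    · exact ⟨by simp only; omega, Nat.one_pos⟩
  op s o hs ho := by
    obtain ⟨d, a, y, n, rfl, -, -, hy, hn⟩ := ops_shape ha e hs ho
    rw [S_sys]
    simp only [dead] at hy hn
    refine ⟨List.prod_pos fun m hm => ?_, ?_, by simp [mkOp]; omega, by simp [mkOp]; omega⟩
    · obtain ⟨r, -, rfl⟩ := List.mem_map.1 hm
      exact pr_pos r
    · cases d <;> simp [mkOp, pr_pos]

theorem flat_incs (r : ℕ) : ∀ e off x, (incs r e).flat off x =
    ((List.range e).map fun i => mkOp none [r] (off + (i + 1)) (off + (i + 1))) ++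
      [mkOp none [] x x]
  | 0, off, x => by simp [incs, Cmd.flat]
  | n + 1, off, x => by
    rw [incs, Cmd.flat, Cmd.flat, flat_incs r n, List.range_succ_eq_map]
    simp [Cmd.len, Function.comp_def, Nat.add_assoc, Nat.add_comm 1]

theorem len_incs (r : ℕ) : ∀ e, (incs r e).len = e + 1
  | 0 => rfl
  | n + 1 => by simp [incs, Cmd.len, len_incs r n]; omega

theorem primrec_test : Primrec (test ha) :=
  (Primrec.nat_add.comp (Primrec.const (main k + (clear rE).len))
    (Primrec.nat_add.comp Primrec.succ (Primrec.const (testCmd ha).len))).of_eq fun e => by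
    simp [test, roundCmd, Cmd.len, len_incs]
    omega

theorem primrec_fin : Primrec (fin ha) :=
  (Primrec.nat_add.comp (primrec_test ha) (Primrec.const (1 + (cleanCmd ha).len))).of_eq
    fun e => by
    simp [fin]
    omega

theorem primrec_dead : Primrec (dead ha) := Primrec.succ.comp (primrec_fin ha)

theorem primrec_mkOp (d : Option ℕ) (a : List ℕ) {α : Type} [Primcodable α] {y n : α → ℕ}
    (hy : Primrec y) (hn : Primrec n) : Primrec fun x => mkOp d a (y x) (n x) :=
  ((Primrec.const _).pair ((Primrec.const _).pair (hy.pair hn))).of_eq fun _ => rfl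

theorem primrec_ops : Primrec (ops ha) := by
  have hinc : Primrec fun e : ℕ =>
      (incs rE e).flat (main k + (clear rE).len) (main k + (clear rE).len + (e + 1)) := by
    have h : Primrec₂ fun (_ : ℕ) (i : ℕ) => mkOp none [rE]
        (main k + (clear rE).len + (i + 1)) (main k + (clear rE).len + (i + 1)) :=
      primrec_mkOp _ _ (Primrec.nat_add.comp (Primrec.const _) (Primrec.succ.comp Primrec.snd))
        (Primrec.nat_add.comp (Primrec.const _) (Primrec.succ.comp Primrec.snd))
    have hx : Primrec fun e : ℕ => main k + (clear rE).len + (e + 1) :=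
      Primrec.nat_add.comp (Primrec.const _) Primrec.succ
    exact (Primrec.list_append.comp (Primrec.list_map Primrec.list_range h)
      (Primrec.list_cons.comp (primrec_mkOp none [] hx hx) (Primrec.const []))).of_eq
      fun e => (flat_incs rE e _ _).symm
  have htest : Primrec fun e => (testCmd ha).flat (main k + (clear rE).len + (e + 1))
      (test ha e) :=
    (Cmd.primrec_flat _).comp
      ((Primrec.nat_add.comp (Primrec.const _) Primrec.succ).pair (primrec_test ha))
  have hround : Primrec fun e => (roundCmd ha e).flat (main k) (test ha e) :=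
    (Primrec.list_append.comp (Primrec.const
      ((clear rE).flat (main k) (main k + (clear rE).len)))
      (Primrec.list_append.comp hinc htest)).of_eq fun e => by
      simp only [roundCmd, Cmd.flat, len_incs]
  have hone : Primrec fun e => [mkOp (some rO) [] (test ha e + 1) (dead ha e)] :=
    Primrec.list_cons.comp (primrec_mkOp _ _ (Primrec.succ.comp (primrec_test ha))
      (primrec_dead ha)) (Primrec.const [])
  have hclean : Primrec fun e => (cleanCmd ha).flat (test ha e + 1) (fin ha e) :=
    (Cmd.primrec_flat _).comp ((Primrec.succ.comp (primrec_test ha)).pair (primrec_fin ha))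
  exact (Primrec.list_append.comp (Primrec.list_append.comp (Primrec.list_append.comp
    (Primrec.const ([mkOp none [] 0 0] ++ (popCmd k).flat 1 0)) hround) hone) hclean).of_eq
    fun e => by simp only [ops]

theorem prim_sys : Sys.Prim (sys ha) :=
  ⟨Primrec.const _, Primrec.const _, primrec_ops ha⟩

end Vale.Agent.P193.Machine
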