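import Mathlib

/-!
# P193 machine: loop programs compute every primitive recursive function

The compiler follows `Vale.Agent.P345.Compile.Cmd`; here every program it builds is moreover
*safe* (the body of a loop never writes the loop's register), so it terminates from every state.
-/

namespace Vale.Agent.P193.Machine

open Function

/-- Structured programs over registers indexed by `ℕ`. -/
inductive Cmd where
  | skip
  | inc (r : ℕ)
  | dec (r : ℕ)
  | seq (p q : Cmd)
  | loop (r : ℕ) (body : Cmd)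

namespace Cmd

/-- The registers a program may change. -/
def Writes : Cmd → ℕ → Prop
  | .skip, _ => False
  | .inc r, s => s = r
  | .dec r, s => s = r
  | .seq p q, s => p.Writes s ∨ q.Writes s
  | .loop r p, s => s = r ∨ p.Writes s

/-- No loop body writes the register of its loop. -/
def Safe : Cmd → Prop
  | .skip => True
  | .inc _ => True
  | .dec _ => True
  | .seq p q => p.Safe ∧ q.Safe
  | .loop r p => ¬ p.Writes r ∧ p.Safe

/-- A bound on the registers used. -/
def regs : Cmd → ℕ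
  | .skip => 0
  | .inc r => r + 1
  | .dec r => r + 1
  | .seq p q => max p.regs q.regs
  | .loop r p => max (r + 1) p.regs

end Cmd

/-- Big-step semantics; `loop r p` is while `r ≠ 0`: decrement `r`, run `p`. -/
inductive Exec : Cmd → (ℕ → ℕ) → (ℕ → ℕ) → Prop
  | skip (σ : ℕ → ℕ) : Exec .skip σ σ
  | inc (r : ℕ) (σ : ℕ → ℕ) : Exec (.inc r) σ (update σ r (σ r + 1))
  | dec (r : ℕ) (σ : ℕ → ℕ) : Exec (.dec r) σ (update σ r (σ r - 1))
  | seq {p q : Cmd} {σ σ₁ σ₂ : ℕ → ℕ} :
      Exec p σ σ₁ → Exec q σ₁ σ₂ → Exec (.seq p q) σ σ₂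
  | loopStop {r : ℕ} {p : Cmd} {σ : ℕ → ℕ} : σ r = 0 → Exec (.loop r p) σ σ
  | loopStep {r m : ℕ} {p : Cmd} {σ σ₁ σ₂ : ℕ → ℕ} :
      σ r = m + 1 → Exec p (update σ r m) σ₁ → Exec (.loop r p) σ₁ σ₂ →
        Exec (.loop r p) σ σ₂

theorem Exec.eq_of_not_writes {p : Cmd} {σ σ' : ℕ → ℕ} (h : Exec p σ σ') {s : ℕ}
    (hs : ¬ p.Writes s) : σ' s = σ s := by
  induction h with
  | skip => rfl
  | inc r σ => exact update_of_ne hs _ _
  | dec r σ => exact update_of_ne hs _ _
  | seq _ _ ih₁ ih₂ =>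
    simp only [Cmd.Writes, not_or] at hs
    rw [ih₂ hs.2, ih₁ hs.1]
  | loopStop _ => rfl
  | loopStep hr _ _ ih₁ ih₂ =>
    have h' := hs
    simp only [Cmd.Writes, not_or] at h'
    rw [ih₂ hs, ih₁ h'.2, update_of_ne h'.1]

/-- A safe program terminates from every state. -/
theorem Cmd.Safe.total : ∀ {p : Cmd}, p.Safe → ∀ σ, ∃ σ', Exec p σ σ'
  | .skip, _, σ => ⟨σ, .skip σ⟩
  | .inc r, _, σ => ⟨_, .inc r σ⟩
  | .dec r, _, σ => ⟨_, .dec r σ⟩
  | .seq p q, h, σ => by
    obtain ⟨σ₁, e₁⟩ := Cmd.Safe.total h.1 σ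
    obtain ⟨σ₂, e₂⟩ := Cmd.Safe.total h.2 σ₁
    exact ⟨σ₂, .seq e₁ e₂⟩
  | .loop r p, h, σ => by
    have body : ∀ τ, ∃ τ', Exec p τ τ' := Cmd.Safe.total h.2
    suffices H : ∀ (m : ℕ) (τ : ℕ → ℕ), τ r = m → ∃ τ', Exec (.loop r p) τ τ' from H _ σ rfl
    intro m
    induction m with
    | zero => exact fun τ hτ => ⟨τ, .loopStop hτ⟩
    | succ m ih =>
      intro τ hτ
      obtain ⟨τ₁, e₁⟩ := body (update τ r m)
      obtain ⟨τ₂, e₂⟩ := ih τ₁ (by rw [e₁.eq_of_not_writes h.1, update_self])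
      exact ⟨τ₂, .loopStep hτ e₁ e₂⟩

/-- Invariant rule for counted loops; `I i` holds when `i` iterations remain. -/
theorem Exec.loop_inv {r : ℕ} {p : Cmd} {I : ℕ → (ℕ → ℕ) → Prop}
    (h0 : ∀ τ, I 0 τ → τ r = 0)
    (hs : ∀ i τ, I (i + 1) τ → τ r = i + 1 ∧ ∃ τ', Exec p (update τ r i) τ' ∧ I i τ') :
    ∀ (m : ℕ) (σ : ℕ → ℕ), I m σ → ∃ σ', Exec (.loop r p) σ σ' ∧ I 0 σ' := by
  intro m
  induction m with
  | zero => exact fun σ h => ⟨σ, .loopStop (h0 σ h), h⟩
  | succ i ih =>
    intro σ h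
    obtain ⟨hr, τ, he, hI⟩ := hs i σ h
    obtain ⟨σ', he', hI'⟩ := ih τ hI
    exact ⟨σ', .loopStep hr he he', hI'⟩

/-- Set a register to zero. -/
def clear (r : ℕ) : Cmd := .loop r .skip

theorem exec_clear (r : ℕ) (σ : ℕ → ℕ) : Exec (clear r) σ (update σ r 0) := by
  obtain ⟨σ', he, hI⟩ :=
    Exec.loop_inv (r := r) (p := .skip) (I := fun i τ => τ = update σ r i)
      (fun τ h => by simp [h])
      (fun i τ h => ⟨by simp [h], _, .skip _, by simp [h]⟩) (σ r) σ (by simp)
  exact hI ▸ he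

/-- Copy `s` into `d`, using the scratch register `t`. -/
def copy (d s t : ℕ) : Cmd :=
  .seq (clear d) (.seq (clear t)
    (.seq (.loop s (.seq (.inc d) (.inc t))) (.loop t (.inc s))))

theorem safe_clear (r : ℕ) : (clear r).Safe := ⟨id, trivial⟩

theorem safe_copy {d s t : ℕ} (hds : d ≠ s) (hst : s ≠ t) : (copy d s t).Safe :=
  ⟨safe_clear d, safe_clear t, ⟨by simp [Cmd.Writes, hds.symm, hst], trivial, trivial⟩,
    by simp [Cmd.Writes, hst.symm], trivial⟩

theorem writes_copy {d s t r : ℕ} (h : (copy d s t).Writes r) : r = d ∨ r = s ∨ r = t := by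
  simp [copy, clear, Cmd.Writes] at h
  tauto

theorem exec_copy {d s t : ℕ} (hds : d ≠ s) (hdt : d ≠ t) (hst : s ≠ t) (σ : ℕ → ℕ) :
    ∃ σ', Exec (copy d s t) σ σ' ∧ σ' d = σ s ∧ ∀ r, r ≠ d → r ≠ t → σ' r = σ r := by
  obtain ⟨σ₁, e₁, s₁, d₁, t₁, o₁⟩ :=
    Exec.loop_inv (r := s) (p := .seq (.inc d) (.inc t))
      (I := fun i τ => τ s = i ∧ τ d + i = σ s ∧ τ t + i = σ s ∧
        ∀ r, r ≠ d → r ≠ s → r ≠ t → τ r = σ r)
      (fun τ h => h.1)
      (fun i τ h => by
        obtain ⟨hs, hd, ht, ho⟩ := h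
        refine ⟨hs, _, .seq (.inc _ _) (.inc _ _), ?_, ?_, ?_, fun r h1 h2 h3 => ?_⟩
        · simp [hds.symm, hst]
        · simp [hds, hdt]; omega
        · simp [hdt.symm, hst.symm]; omega
        · simp [h1, h2, h3, ho r h1 h2 h3])
      (σ s) (update (update σ d 0) t 0)
      ⟨by simp [hds.symm, hst], by simp [hdt], by simp,
        fun r h1 h2 h3 => by simp [h1, h3]⟩
  simp only [Nat.add_zero] at d₁ t₁
  obtain ⟨σ₂, e₂, t₂, s₂, o₂⟩ :=
    Exec.loop_inv (r := t) (p := .inc s)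
      (I := fun i τ => τ t = i ∧ τ s + i = σ s ∧ ∀ r, r ≠ s → r ≠ t → τ r = σ₁ r)
      (fun τ h => h.1)
      (fun i τ h => by
        obtain ⟨ht, hs, ho⟩ := h
        refine ⟨ht, _, .inc _ _, ?_, ?_, fun r h1 h2 => ?_⟩
        · simp [hst.symm]
        · simp [hst]; omega
        · simp [h1, h2, ho r h1 h2])
      (σ s) σ₁ ⟨t₁, by simp [s₁], fun r _ _ => rfl⟩
  refine ⟨σ₂, .seq (exec_clear d σ) (.seq (exec_clear t _) (.seq e₁ e₂)),
    (o₂ d hds hdt).trans d₁, fun r h1 h2 => ?_⟩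
  by_cases hrs : r = s
  · subst hrs; simpa using s₂
  · rw [o₂ r hrs h2, o₁ r h1 hrs h2]

/-- `incs r n` adds `n` to the register `r`. -/
def incs (r : ℕ) : ℕ → Cmd
  | 0 => .skip
  | n + 1 => .seq (.inc r) (incs r n)

theorem safe_incs (r : ℕ) : ∀ n, (incs r n).Safe
  | 0 => trivial
  | n + 1 => ⟨trivial, safe_incs r n⟩

theorem writes_incs {r s : ℕ} : ∀ {n}, (incs r n).Writes s → s = r
  | 0, h => h.elim
  | n + 1, h => h.elim id (writes_incs (n := n))

theorem exec_incs (r : ℕ) : ∀ n σ, Exec (incs r n) σ (update σ r (σ r + n))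
  | 0, σ => by simpa [incs] using Exec.skip σ
  | n + 1, σ => by
    have h := exec_incs r n (update σ r (σ r + 1))
    rw [update_idem, update_self, Nat.add_assoc, Nat.add_comm 1 n] at h
    exact .seq (.inc _ _) h

/-- Clear all registers below `n`. -/
def clearBelow : ℕ → Cmd
  | 0 => .skip
  | n + 1 => .seq (clearBelow n) (clear n)

theorem safe_clearBelow : ∀ n, (clearBelow n).Safe
  | 0 => trivial
  | n + 1 => ⟨safe_clearBelow n, safe_clear n⟩

theorem regs_clearBelow : ∀ n, (clearBelow n).regs ≤ n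
  | 0 => le_rfl
  | n + 1 => by
    have := regs_clearBelow n
    simp [clearBelow, clear, Cmd.regs]
    omega

theorem exec_clearBelow : ∀ n σ, ∃ σ', Exec (clearBelow n) σ σ' ∧ ∀ r < n, σ' r = 0
  | 0, σ => ⟨σ, .skip σ, fun r h => absurd h (Nat.not_lt_zero r)⟩
  | n + 1, σ => by
    obtain ⟨σ₁, e₁, h₁⟩ := exec_clearBelow n σ
    refine ⟨_, .seq e₁ (exec_clear n σ₁), fun r hr => ?_⟩
    rcases Nat.lt_succ_iff_lt_or_eq.1 hr with h | h
    · rw [update_of_ne h.ne, h₁ r h]
    · rw [h, update_self]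

/-- `p` computes `f` from the registers `ins` into `o`, uses scratch registers from `b` on, and
is safe. -/
def ComputesAt {k : ℕ} (p : Cmd) (f : List.Vector ℕ k → ℕ) (ins : Fin k → ℕ) (o b : ℕ) : Prop :=
  (∀ σ : ℕ → ℕ, ∃ σ', Exec p σ σ' ∧
    σ' o = f (List.Vector.ofFn fun i => σ (ins i)) ∧ ∀ r, r < b → r ≠ o → σ' r = σ r) ∧
  p.Safe ∧ ∀ r, p.Writes r → r = o ∨ b ≤ r ∨ ∃ i, r = ins i

/-- `f` is computed by a safe program on any inputs below a free bound `b`. -/
def Computes {k : ℕ} (f : List.Vector ℕ k → ℕ) : Prop :=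
  ∀ (ins : Fin k → ℕ) (o b : ℕ), (∀ i, ins i < b) → o < b → (∀ i, ins i ≠ o) →
    ∃ p : Cmd, ComputesAt p f ins o b

theorem computes_zero : Computes (fun _ : List.Vector ℕ 0 => 0) := fun _ o _ _ _ _ =>
  ⟨clear o, fun σ => ⟨_, exec_clear o σ, by simp, fun r _ hr => by simp [hr]⟩, safe_clear o,
    fun r h => by simp [clear, Cmd.Writes] at h; exact .inl h⟩

theorem computes_succ : Computes (fun v : List.Vector ℕ 1 => v.head.succ) := by
  intro ins o b hins ho hne
  refine ⟨.seq (copy o (ins 0) b) (.inc o), fun σ => ?_,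
    ⟨safe_copy (hne 0).symm (hins 0).ne, trivial⟩, fun r h => ?_⟩
  · obtain ⟨σ₁, e₁, d₁, o₁⟩ := exec_copy (hne 0).symm ho.ne (hins 0).ne σ
    exact ⟨_, .seq e₁ (.inc _ _), by simp [d₁, List.Vector.ofFn],
      fun r hr hro => by simp [hro, o₁ r hro hr.ne]⟩
  · rcases h with h | h
    · rcases writes_copy h with h | h | h
      exacts [.inl h, .inr (.inr ⟨0, h⟩), .inr (.inl h.ge)]
    · exact .inl h

theorem computes_get {n : ℕ} (i : Fin n) : Computes (fun v : List.Vector ℕ n => v.get i) := by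
  intro ins o b hins ho hne
  refine ⟨copy o (ins i) b, fun σ => ?_, safe_copy (hne i).symm (hins i).ne, fun r h => ?_⟩
  · obtain ⟨σ₁, e₁, d₁, o₁⟩ := exec_copy (hne i).symm ho.ne (hins i).ne σ
    exact ⟨σ₁, e₁, by simpa using d₁, fun r hr hro => o₁ r hro hr.ne⟩
  · rcases writes_copy h with h | h | h
    exacts [.inl h, .inr (.inr ⟨i, h⟩), .inr (.inl h.ge)]

theorem computes_family {m n : ℕ} {g : Fin n → List.Vector ℕ m → ℕ} (hg : ∀ i, Computes (g i))
    (ins : Fin m → ℕ) (b : ℕ) (hins : ∀ i, ins i < b) :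
    ∃ p : Cmd, (∀ σ : ℕ → ℕ, ∃ σ', Exec p σ σ' ∧
      (∀ i : Fin n, σ' (b + i) = g i (List.Vector.ofFn fun j => σ (ins j))) ∧
      ∀ r, r < b → σ' r = σ r) ∧ p.Safe ∧ ∀ r, p.Writes r → b ≤ r ∨ ∃ i, r = ins i := by
  suffices H : ∀ j ≤ n, ∃ p : Cmd, (∀ σ : ℕ → ℕ, ∃ σ', Exec p σ σ' ∧
      (∀ i : Fin n, (i : ℕ) < j → σ' (b + i) = g i (List.Vector.ofFn fun l => σ (ins l))) ∧
      ∀ r, r < b → σ' r = σ r) ∧ p.Safe ∧ ∀ r, p.Writes r → b ≤ r ∨ ∃ i, r = ins i by
    obtain ⟨p, hp, hs, hw⟩ := H n le_rfl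
    refine ⟨p, fun σ => ?_, hs, hw⟩
    obtain ⟨σ', e, v, k⟩ := hp σ
    exact ⟨σ', e, fun i => v i i.2, k⟩
  intro j hj
  induction j with
  | zero => exact ⟨.skip, fun σ => ⟨σ, .skip σ, fun i h => absurd h (Nat.not_lt_zero _),
      fun r _ => rfl⟩, trivial, fun r h => h.elim⟩
  | succ j ih =>
    obtain ⟨p, hp, hps, hpw⟩ := ih (by omega)
    obtain ⟨q, hq, hqs, hqw⟩ := hg ⟨j, hj⟩ ins (b + j) (b + n)
      (fun i => (hins i).trans_le (by omega)) (by omega) (fun i => by have := hins i; omega)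
    refine ⟨.seq p q, fun σ => ?_, ⟨hps, hqs⟩, fun r h => ?_⟩
    · obtain ⟨σ₁, e₁, v₁, k₁⟩ := hp σ
      obtain ⟨σ₂, e₂, v₂, k₂⟩ := hq σ₁
      refine ⟨σ₂, .seq e₁ e₂, fun i hi => ?_, fun r hr => ?_⟩
      · rcases Nat.lt_succ_iff_lt_or_eq.1 hi with h | h
        · rw [k₂ (b + i) (by omega) (by omega), v₁ i h]
        · obtain rfl : i = ⟨j, hj⟩ := Fin.ext h
          rw [v₂]
          congr 2
          funext l
          exact k₁ _ (hins l)
      · rw [k₂ r (by omega) (by omega), k₁ r hr]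
    · rcases h with h | h
      · exact hpw r h
      · rcases hqw r h with h | h | h
        exacts [.inl (by omega), .inl (by omega), .inr h]

theorem computes_comp {m n : ℕ} {f : List.Vector ℕ n → ℕ} (g : Fin n → List.Vector ℕ m → ℕ)
    (hf : Computes f) (hg : ∀ i, Computes (g i)) :
    Computes (fun a => f (List.Vector.ofFn fun i => g i a)) := by
  intro ins o b hins ho hne
  obtain ⟨p, hp, hps, hpw⟩ := computes_family hg ins b hins
  obtain ⟨q, hq, hqs, hqw⟩ := hf (fun i => b + i) o (b + n) (fun i => by simp)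
    (by omega) (fun i => by omega)
  refine ⟨.seq p q, fun σ => ?_, ⟨hps, hqs⟩, fun r h => ?_⟩
  · obtain ⟨σ₁, e₁, v₁, k₁⟩ := hp σ
    obtain ⟨σ₂, e₂, v₂, k₂⟩ := hq σ₁
    refine ⟨σ₂, .seq e₁ e₂, ?_, fun r hr hro => ?_⟩
    · simp only [v₂, v₁]
    · rw [k₂ r (by omega) hro, k₁ r hr]
  · rcases h with h | h
    · exact .inr (hpw r h)
    · rcases hqw r h with h | h | ⟨i, h⟩
      exacts [.inl h, .inr (.inl (by omega)), .inr (.inl (h ▸ Nat.le_add_right b i))]

theorem computes_prec {n : ℕ} {f : List.Vector ℕ n → ℕ} {g : List.Vector ℕ (n + 2) → ℕ}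
    (hf : Computes f) (hg : Computes g) :
    Computes (fun v : List.Vector ℕ (n + 1) =>
      v.head.rec (f v.tail) fun y IH => g (y ::ᵥ IH ::ᵥ v.tail)) := by
  intro ins o b hins ho hne
  obtain ⟨pf, hpf, hpfs, hpfw⟩ := hf (fun i => ins i.succ) (b + 2) (b + 5)
    (fun i => (hins _).trans_le (by omega)) (by omega) (fun i => by have := hins i.succ; omega)
  obtain ⟨pg, hpg, hpgs, hpgw⟩ := hg
    (Fin.cons (b + 1) (Fin.cons (b + 2) fun i => ins i.succ)) (b + 3) (b + 5)
    (fun i => by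
      refine Fin.cases ?_ (fun j => Fin.cases ?_ (fun l => ?_) j) i
      · simp
      · simp
      · simp; have := hins l.succ; omega)
    (by omega)
    (fun i => by
      refine Fin.cases ?_ (fun j => Fin.cases ?_ (fun l => ?_) j) i
      · simp
      · simp
      · simp; have := hins l.succ; omega)
  have hgw : ∀ r, pg.Writes r → r ≠ b ∧ (b ≤ r ∨ ∃ i, r = ins i) := by
    intro r h
    rcases hpgw r h with h | h | ⟨i, h⟩
    · exact ⟨by omega, .inl (by omega)⟩
    · exact ⟨by omega, .inl (by omega)⟩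
    · revert h
      refine Fin.cases ?_ (fun j => Fin.cases ?_ (fun l => ?_) j) i
      · simp; omega
      · simp; omega
      · simp only [Fin.cons_succ]
        intro h
        exact ⟨by have := hins l.succ; omega, .inr ⟨_, h⟩⟩
  have h0 := hins 0
  refine ⟨.seq (copy b (ins 0) (b + 4)) (.seq (clear (b + 1)) (.seq pf (.seq
    (.loop b (.seq pg (.seq (copy (b + 2) (b + 3) (b + 4)) (.inc (b + 1)))))
    (copy o (b + 2) (b + 4))))), fun σ => ?_, ?_, ?_⟩
  · obtain ⟨σ₁, e₁, d₁, k₁⟩ := exec_copy (d := b) (s := ins 0) (t := b + 4)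
      (by omega) (by omega) (by omega) σ
    obtain ⟨σ₃, e₃, v₃, k₃⟩ := hpf (update σ₁ (b + 1) 0)
    have hrest : ∀ τ : ℕ → ℕ, (∀ r, r < b → τ r = σ r) →
        (List.Vector.ofFn fun i : Fin n => τ (ins i.succ)) =
          List.Vector.ofFn fun i => σ (ins i.succ) := fun τ h => by
      congr 1
      funext i
      exact h _ (hins _)
    set rest := List.Vector.ofFn fun i : Fin n => σ (ins i.succ)
    let R : ℕ → ℕ := fun y => y.rec (f rest) fun y IH => g (y ::ᵥ IH ::ᵥ rest)
    obtain ⟨σ₄, e₄, -, y₄, a₄, k₄⟩ :=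
      Exec.loop_inv (r := b) (p := .seq pg (.seq (copy (b + 2) (b + 3) (b + 4)) (.inc (b + 1))))
        (I := fun i τ => τ b = i ∧ τ (b + 1) + i = σ (ins 0) ∧
          τ (b + 2) = R (τ (b + 1)) ∧ ∀ r, r < b → τ r = σ r)
        (fun τ h => h.1)
        (fun i τ h => by
          obtain ⟨hb, hy, ha, hk⟩ := h
          obtain ⟨τ₁, f₁, w₁, l₁⟩ := hpg (update τ b i)
          obtain ⟨τ₂, f₂, w₂, l₂⟩ := exec_copy (d := b + 2) (s := b + 3) (t := b + 4)
            (by omega) (by omega) (by omega) τ₁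
          refine ⟨hb, _, .seq f₁ (.seq f₂ (.inc _ _)), ?_, ?_, ?_, fun r hr => ?_⟩
          · rw [update_of_ne (by omega), l₂ b (by omega) (by omega), l₁ b (by omega) (by omega),
              update_self]
          · rw [update_self, l₂ (b + 1) (by omega) (by omega), l₁ (b + 1) (by omega) (by omega),
              update_of_ne (by omega)]
            omega
          · rw [update_of_ne (by omega), update_self, w₂, w₁, l₂ (b + 1) (by omega) (by omega),
              l₁ (b + 1) (by omega) (by omega), update_of_ne (by omega)]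
            have hv : (List.Vector.ofFn fun j => update τ b i
                (Fin.cons (α := fun _ => ℕ) (b + 1) (Fin.cons (b + 2) fun l => ins l.succ) j)) =
                τ (b + 1) ::ᵥ τ (b + 2) ::ᵥ rest := by
              rw [← hrest (update τ b i) fun r hr => by rw [update_of_ne (by omega), hk r hr]]
              simp [List.Vector.ofFn]
            rw [hv, ha]
          · rw [update_of_ne (by omega), l₂ r (by omega) (by omega), l₁ r (by omega) (by omega),
              update_of_ne (by omega), hk r hr])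
        (σ (ins 0)) σ₃
        ⟨by rw [k₃ b (by omega) (by omega), update_of_ne (by omega), d₁],
          by rw [k₃ (b + 1) (by omega) (by omega), update_self]; omega,
          by
            rw [v₃, k₃ (b + 1) (by omega) (by omega), update_self]
            show f _ = f rest
            rw [hrest _ fun r hr => by
              rw [update_of_ne (by omega), k₁ r (by omega) (by omega)]],
          fun r hr => by
            rw [k₃ r (by omega) (by omega), update_of_ne (by omega), k₁ r (by omega) (by omega)]⟩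
    obtain ⟨σ₅, e₅, d₅, k₅⟩ := exec_copy (d := o) (s := b + 2) (t := b + 4)
      (by omega) (by omega) (by omega) σ₄
    refine ⟨σ₅, .seq e₁ (.seq (exec_clear _ _) (.seq e₃ (.seq e₄ e₅))), ?_, fun r hr hro => ?_⟩
    · rw [d₅, a₄, show σ₄ (b + 1) = σ (ins 0) by omega]
      simp [R, rest, List.Vector.ofFn]
    · rw [k₅ r hro (by omega), k₄ r hr]
  · refine ⟨safe_copy (by omega) (by omega), safe_clear _, hpfs,
      ⟨?_, hpgs, safe_copy (by omega) (by omega), trivial⟩, safe_copy (by omega) (by omega)⟩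
    rintro (h | h | h)
    · exact (hgw b h).1 rfl
    · rcases writes_copy h with h | h | h <;> omega
    · change b = b + 1 at h
      omega
  · intro r h
    simp only [clear, Cmd.Writes, or_false] at h
    rcases h with h | h | h | (h | h | h | h) | h
    · rcases writes_copy h with h | h | h
      exacts [.inr (.inl h.ge), .inr (.inr ⟨0, h⟩), .inr (.inl (by omega))]
    · exact .inr (.inl (by omega))
    · rcases hpfw r h with h | h | ⟨i, h⟩
      exacts [.inr (.inl (by omega)), .inr (.inl (by omega)), .inr (.inr ⟨_, h⟩)]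
    · exact .inr (.inl h.ge)
    · exact .inr (hgw r h).2
    · rcases writes_copy h with h | h | h <;> exact .inr (.inl (by omega))
    · exact .inr (.inl (by omega))
    · rcases writes_copy h with h | h | h
      exacts [.inl h, .inr (.inl (by omega)), .inr (.inl (by omega))]

/-- Every primitive recursive function is computed by a safe program. -/
theorem computes_of_primrec' {n : ℕ} {f : List.Vector ℕ n → ℕ} (hf : Nat.Primrec' f) :
    Computes f := by
  induction hf with
  | zero => exact computes_zero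
  | succ => exact computes_succ
  | get i => exact computes_get i
  | comp g _ _ ihf ihg => exact computes_comp g ihf ihg
  | prec _ _ ihf ihg => exact computes_prec ihf ihg

end Vale.Agent.P193.Machine
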